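import Crest.Agent.X212.Wz78.Hs
import Crest.Agent.X212.Sob92.Ev

/-! Pointwise algebra of Hilbert-Schmidt vectors; the format `QB` of a gauge group. -/

set_option autoImplicit false
set_option linter.unusedSectionVars false
noncomputable section
open scoped Manifold ContDiff Topology InnerProductSpace
open MeasureTheory Set Function Filter

namespace Crest.Agent.X212.Grp76
open An An.Pre Sob92 Wz78

section lin
variable {κ : Type} [Fintype κ] [DecidableEq κ] {ι : Type} [Fintype ι]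
  {U V : Type} [NormedAddCommGroup U] [InnerProductSpace ℝ U] [NormedAddCommGroup V]
  [InnerProductSpace ℝ V]

/-- the product of Hilbert-Schmidt vectors -/
def mA : CL (HS κ) (CL (HS κ) (HS κ)) :=
  (ContinuousLinearMap.compL ℝ (HS κ) (En κ) (HS κ) hsL).comp
    ((ContinuousLinearMap.mul ℝ (En κ)).bilinearComp opL opL)

/-- the opposite product -/
def mO : CL (HS κ) (CL (HS κ) (HS κ)) := ContinuousLinearMap.flip mA

/-- the transpose -/
def tA : CL (HS κ) (HS κ) := LinearMap.toContinuousLinearMap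
  { toFun := fun ξ => hsL (trn (opL ξ))
    map_add' := fun ξ η => by simp only [map_add]
    map_smul' := fun r ξ => by simp }

theorem mA_apply (ξ η : HS κ) : mA ξ η = hsL (opL ξ * opL η) := rfl

@[simp] theorem mO_apply (ξ η : HS κ) : mO ξ η = mA η ξ := rfl

@[simp] theorem opL_mA (ξ η : HS κ) : opL (mA ξ η) = opL ξ * opL η := opL_hsL _

@[simp] theorem opL_tA (ξ : HS κ) : opL (tA ξ) = trn (opL ξ) := opL_hsL _

theorem mA_assoc (ξ η θ : HS κ) : mA (mA ξ η) θ = mA ξ (mA η θ) :=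
  opL_inj (by simp only [opL_mA, mul_assoc])

@[simp] theorem tA_tA (ξ : HS κ) : tA (tA ξ) = ξ :=
  opL_inj (by simp only [opL_tA, ContinuousLinearMap.adjoint_adjoint])

theorem tA_mA (ξ η : HS κ) : tA (mA ξ η) = mA (tA η) (tA ξ) :=
  opL_inj (by simp only [opL_tA, opL_mA, trn_mul])

theorem adc_mA (A : En κ) (ξ η : HS κ) : adc A (mA ξ η) = mA (adc A ξ) η + mA ξ (adc A η) :=
  opL_inj (by simp only [opL_adc, opL_mA, map_add]; noncomm_ring)

theorem tA_adc {A : En κ} (hA : Skw A) (ξ : HS κ) : tA (adc A ξ) = adc A (tA ξ) :=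
  opL_inj (by
    simp only [opL_adc, opL_tA, map_sub, trn_mul, Skw.trn hA]; noncomm_ring)

theorem adc_opL (ξ η : HS κ) : adc (opL ξ) η = mA ξ η - mA η ξ :=
  opL_inj (by simp only [opL_adc, opL_mA, map_sub])

theorem skw_iff (ξ : HS κ) : Skw (opL ξ) ↔ tA ξ = -ξ := by
  refine ⟨fun h => opL_inj (by rw [opL_tA, Skw.trn h, map_neg]), fun h v w => ?_⟩
  rw [← ContinuousLinearMap.adjoint_inner_right]
  have : trn (opL ξ) = -opL ξ := by rw [← opL_tA, h, map_neg]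
  rw [show ContinuousLinearMap.adjoint (opL ξ) = -opL ξ from this]
  simp

/-- a family of maps as a map to forms -/
def tp (f : ι → U →L[ℝ] V) : CL U (Fm ι V) :=
  (PiLp.continuousLinearEquiv 2 ℝ fun _ : ι => V).symm.toContinuousLinearMap ∘L
    ContinuousLinearMap.pi f

@[simp] theorem tp_apply (f : ι → U →L[ℝ] V) (u : U) (a : ι) : tp f u a = f a u := rfl

variable (V) in
/-- a component -/
def pj (a : ι) : CL (Fm ι V) V := PiLp.proj 2 (fun _ : ι => V) a

@[simp] theorem pj_apply (a : ι) (η : Fm ι V) : pj V a η = η a := rfl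

open Classical in
variable (V) in
/-- inclusion of a component -/
def ij (a : ι) : CL V (Fm ι V) := tp fun b => if b = a then ContinuousLinearMap.id ℝ V else 0

theorem sum_ij (f : ι → V) (c : ι) : (∑ b, ij V b (f b)) c = f c := by
  rw [← pj_apply, map_sum, Finset.sum_eq_single c (fun b _ hb => by simp [ij, hb.symm]) (by simp)]
  simp [ij]

theorem tp_eq (f : ι → U →L[ℝ] V) : tp f = ∑ a, ij V a ∘L f a := by
  ext1 u
  ext1 c
  rw [_root_.sum_apply]
  exact (sum_ij (fun a => f a u) c).symm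

variable (ι) in
/-- a bilinear map acting on the values of forms -/
def onF (β : U →L[ℝ] V →L[ℝ] V) : CL U (CL (Fm ι V) (Fm ι V)) :=
  ∑ a, ((ContinuousLinearMap.compL ℝ (Fm ι V) V (Fm ι V) (ij V a)).comp
    ((ContinuousLinearMap.compL ℝ (Fm ι V) V V).flip (pj V a))).comp β

@[simp] theorem onF_apply (β : U →L[ℝ] V →L[ℝ] V) (ξ : U) (η : Fm ι V) (a : ι) :
    onF ι β ξ η a = β ξ (η a) := by
  rw [onF, _root_.sum_apply, _root_.sum_apply]
  exact sum_ij (fun a => β ξ (η a)) a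

variable (ι) in
/-- the transpose on forms -/
def tF : CL (Fm ι (HS κ)) (Fm ι (HS κ)) := tp fun a => tA ∘L pj (HS κ) a

@[simp] theorem tF_apply (η : Fm ι (HS κ)) (a : ι) : tF ι η a = tA (η a) := rfl

/-- `ξ ↦ ξ v` -/
def evA (v : Eu κ) : CL (HS κ) (Eu κ) := ContinuousLinearMap.flip opL v

@[simp] theorem evA_apply (v : Eu κ) (ξ : HS κ) : evA v ξ = opL ξ v := rfl

end lin

variable {E : Type} [NormedAddCommGroup E] [NormedSpace ℝ E] [FiniteDimensional ℝ E]
  [MeasurableSpace E] [BorelSpace E]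
  {HM : Type} [TopologicalSpace HM] {I : ModelWithCorners ℝ E HM}
  {M : Type} [TopologicalSpace M] [ChartedSpace HM M] [IsManifold I ∞ M]
  [MeasurableSpace M] [T2Space M] [BorelSpace M] {ι : Type} [Fintype ι] {κ : Type} [Fintype κ]
  [DecidableEq κ]

theorem Cb_tp {U V : Type} [NormedAddCommGroup U] [InnerProductSpace ℝ U] [NormedAddCommGroup V]
    [InnerProductSpace ℝ V] {F : Pre I M ι} {f : ι → M → U →L[ℝ] V} (hf : ∀ a, F.Cb (f a)) :
    F.Cb fun x => tp fun a => f a x := by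
  simp only [tp_eq]
  exact Cb_sum _ fun a _ => Cb_comp (Cb_const _) (hf a)

variable (M ι κ) in
/-- The data of a gauge group: the quaternion bundle `h`, its skew part `g`, the one-forms `c`
with values in `g`, the spinors `s`, the base connection and the base spinor. -/
structure QB where
  h : M → CL (HS κ) (HS κ)
  g : M → CL (HS κ) (HS κ)
  c : M → CL (Fm ι (HS κ)) (Fm ι (HS κ))
  s : M → En κ
  W : ι → M → En κ
  Φ : M → Eu κ

namespace QB
variable (Q : QB M ι κ) (F : Fr I M ι)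

/-- the connection on endomorphisms -/
def ad : ι → M → En (κ × κ) := fun a x => adc (Q.W a x)

structure OK : Prop where
  cP : ∀ a b, F.Cb (F.P a b)
  ch : F.Cb Q.h
  cg : F.Cb Q.g
  cc : F.Cb Q.c
  cW : ∀ a, F.Cb (Q.W a)
  cΦ : F.Cb Q.Φ
  hh : ∀ x ξ, Q.h x (Q.h x ξ) = Q.h x ξ
  gg : ∀ x ξ, Q.g x (Q.g x ξ) = Q.g x ξ
  cc' : ∀ x η, Q.c x (Q.c x η) = Q.c x η
  mul : ∀ x ξ η, Q.h x ξ = ξ → Q.h x η = η → Q.h x (mA ξ η) = mA ξ η
  tr : ∀ x ξ, Q.h x ξ = ξ → Q.h x (tA ξ) = tA ξ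
  nrm : ∀ x ξ, Q.h x ξ = ξ → mA ξ (tA ξ) = mA (tA ξ) ξ
  g_iff : ∀ x ξ, Q.g x ξ = ξ ↔ Q.h x ξ = ξ ∧ tA ξ = -ξ
  c_iff : ∀ x η, Q.c x η = η ↔ (∀ a, Q.g x (η a) = η a) ∧ ∀ a, ∑ b, F.P a b x • η b = η a
  par : ∀ u : M → HS κ, MDifferentiable I 𝓘(ℝ, HS κ) u → (∀ x, Q.h x (u x) = u x) →
    ∀ a x, Q.h x (nab I F.e Q.ad a u x) = nab I F.e Q.ad a u x
  sk : ∀ a x, Skw (Q.W a x)
  WP : ∀ a x, ∑ b, F.P a b x • Q.W b x = Q.W a x
  act : ∀ x ξ v, Q.h x ξ = ξ → Q.s x v = v → Q.s x (opL ξ v) = opL ξ v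
  sΦ : ∀ x, Q.s x (Q.Φ x) = Q.Φ x

/-- one-forms with values in `h` -/
def b (x : M) : CL (Fm ι (HS κ)) (Fm ι (HS κ)) := idx (fun a b => F.P a b x) (Q.h x)

theorem b_apply (x : M) (η : Fm ι (HS κ)) (a : ι) :
    Q.b F x η a = ∑ c, F.P a c x • Q.h x (η c) := idx_apply _ _ _ _

/-- symbol of the covariant derivative -/
def σ (a : ι) (x : M) : CL (HS κ) (Fm ι (HS κ)) := Q.b F x ∘L ij (HS κ) a

/-- zero order part of the covariant derivative -/
def B0 (x : M) : CL (HS κ) (Fm ι (HS κ)) := Q.b F x ∘L tp fun a => Q.ad a x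

variable {Q F}

theorem sum_P_nab (hW : ∀ a x, ∑ b, F.P a b x • Q.W b x = Q.W a x) (u : M → HS κ) (a : ι)
    (x : M) : ∑ b, F.P a b x • nab I F.e Q.ad b u x = nab I F.e Q.ad a u x := by
  simp only [nab, smul_add, Finset.sum_add_distrib, (frm F).projD]
  congr 1
  simp only [ad, ← adcL_apply]
  rw [← hW a x, map_sum, _root_.sum_apply]
  simp only [map_smul, _root_.smul_apply]

namespace OK
variable (H : Q.OK F)
include H

theorem bb (x : M) (η : Fm ι (HS κ)) : Q.b F x (Q.b F x η) = Q.b F x η := by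
  rw [b, idx_idx]
  ext1 a
  simp only [idx_apply, (frPr F x).idem, mul_apply_eq_comp, H.hh]

theorem b_iff (x : M) (η : Fm ι (HS κ)) :
    Q.b F x η = η ↔ (∀ a, Q.h x (η a) = η a) ∧ ∀ a, ∑ c, F.P a c x • η c = η a := by
  have e : Q.b F x η = η → ∀ a, Q.h x (η a) = η a := fun h a => by
    rw [← h, b_apply, map_sum]
    simp only [map_smul, H.hh]
  refine ⟨fun h => ⟨e h, fun a => ?_⟩, fun h => ?_⟩
  · conv_rhs => rw [← h, b_apply]
    simp only [e h]
  · ext1 a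
    simp only [b_apply, h.1, h.2]

theorem cb : F.Cb (Q.b F) := by
  have : Q.b F = fun x => tp fun a => ∑ c, F.P a c x • (Q.h x ∘L pj (HS κ) c) := rfl
  rw [this]
  exact Cb_tp fun a => Cb_sum _ fun c _ => Cb_smul (H.cP a c) (Cb_comp H.ch (Cb_const _))

theorem cad (a : ι) : F.Cb (Q.ad a) := Cb_clm adcL (H.cW a)

theorem cσ (a : ι) : F.Cb (Q.σ F a) := Cb_comp H.cb (Cb_const _)

theorem cB0 : F.Cb (Q.B0 F) := Cb_comp H.cb (Cb_tp H.cad)

theorem cev : F.Cb fun x => evA (Q.Φ x) := Cb_clm (ContinuousLinearMap.flip opL) H.cΦ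

theorem op_del {u : M → HS κ} (hu : MDifferentiable I 𝓘(ℝ, HS κ) u) (h : ∀ x, Q.h x (u x) = u x)
    (x : M) (a : ι) : F.op (Q.σ F) (Q.B0 F) u x a = nab I F.e Q.ad a u x := by
  simp only [Pre.op, σ, B0, ContinuousLinearMap.comp_apply, ← map_sum, ← map_add]
  rw [b_apply, ← sum_P_nab H.WP]
  refine Finset.sum_congr rfl fun c _ => ?_
  rw [← H.par u hu h, PiLp.add_apply, sum_ij]
  rfl

theorem m_mA : Maps₂ Q.h Q.h Q.h fun _ => mA := H.mul

theorem m_tA : Maps Q.h Q.h fun _ => tA := H.tr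

theorem m_l : Maps₂ Q.h (Q.b F) (Q.b F) fun _ => onF ι mA := fun x ξ η h1 h2 => by
  rw [H.b_iff] at h2 ⊢
  refine ⟨fun a => by simpa only [onF_apply] using H.mul x _ _ h1 (h2.1 a), fun a => ?_⟩
  simp only [onF_apply, ← map_smul, ← map_sum, h2.2]

theorem m_r : Maps₂ Q.h (Q.b F) (Q.b F) fun _ => onF ι mO := fun x ξ η h1 h2 => by
  rw [H.b_iff] at h2 ⊢
  refine ⟨fun a => by simpa only [onF_apply, mO_apply] using H.mul x _ _ (h2.1 a) h1, fun a => ?_⟩
  simp only [onF_apply, ← map_smul, ← map_sum, h2.2]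

theorem m_tF : Maps (Q.b F) (Q.b F) fun _ => tF ι := fun x η h2 => by
  rw [H.b_iff] at h2 ⊢
  refine ⟨fun a => H.tr x _ (h2.1 a), fun a => ?_⟩
  simp only [tF_apply, ← map_smul, ← map_sum, h2.2]

theorem m_a : Maps₂ Q.h Q.s Q.s fun _ => opL := H.act

theorem m_ds : Maps Q.h Q.s fun x => evA (Q.Φ x) := fun x ξ h => H.act x ξ _ h (H.sΦ x)

theorem m_pa : Maps Q.c (Q.b F) (triv M _) := fun x η h => by
  rw [H.c_iff] at h
  exact (H.b_iff x η).2 ⟨fun a => ((H.g_iff x _).1 (h.1 a)).1, h.2⟩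

theorem m_c : Maps (Q.b F) Q.c Q.c := Maps.of_left H.cc'

theorem m_j : Maps Q.g Q.h (triv M _) := fun x ξ h => ((H.g_iff x ξ).1 h).1

theorem m_q : Maps Q.h Q.g Q.g := Maps.of_left H.gg

theorem g_adc {x : M} {ξ η : HS κ} (h1 : Q.g x ξ = ξ) (h2 : Q.h x η = η) :
    Q.h x (adc (opL ξ) η) = adc (opL ξ) η := by
  have h3 := ((H.g_iff x ξ).1 h1).1
  rw [adc_opL, map_sub, H.mul x _ _ h3 h2, H.mul x _ _ h2 h3]

end OK
end QB

end Crest.Agent.X212.Grp76
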