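import Crest.Agent.X212.Grp76.Act

/-! One parameter subgroups; the infinitesimal stabiliser of a free point acts trivially. -/

set_option autoImplicit false

noncomputable section

open Set Filter Topology Function

namespace Crest.Agent.X212.Grp76

variable {R B S C L : Type*} [NormedAddCommGroup R] [NormedSpace ℝ R]
  [NormedAddCommGroup B] [NormedSpace ℝ B] [NormedAddCommGroup S] [NormedSpace ℝ S]
  [NormedAddCommGroup C] [NormedSpace ℝ C] [NormedAddCommGroup L] [NormedSpace ℝ L]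

/-- a zero of the generator of an affine flow is fixed -/
theorem flow_fix {G : Type*} [Group G] [MulAction G C]
    (aff : ∀ g : G, ∃ A : C →L[ℝ] C, ∀ x, g • x = A x + g • (0 : C)) {γ : ℝ → G} (h0 : γ 0 = 1)
    (hm : ∀ s t, γ (s + t) = γ s * γ t) {v : C} (hv : HasDerivAt (fun t => γ t • v) 0 0) (t : ℝ) :
    γ t • v = v := by
  have h : ∀ s, HasDerivAt (fun t => γ t • v) 0 s := fun s => by
    obtain ⟨A, hA⟩ := aff (γ s)
    have h1 : HasDerivAt (fun t => γ (t - s) • v) 0 s :=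
      HasDerivAt.comp_sub_const (f := fun t => γ t • v) s s (by rwa [sub_self])
    have h2 := (A.hasFDerivAt.comp_hasDerivAt s h1).add_const (γ s • (0 : C))
    rw [map_zero] at h2
    refine h2.congr_of_eventuallyEq (Eventually.of_forall fun t => ?_)
    simp only [comp_apply]
    rw [← hA, ← mul_smul, ← hm, add_sub_cancel]
  rw [is_const_of_deriv_eq_zero (fun s => (h s).differentiableAt) (fun s => (h s).deriv) t 0, h0,
    one_smul]

theorem gen_eq_zero {G : Type*} [Group G] [MulAction G C]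
    (aff : ∀ g : G, ∃ A : C →L[ℝ] C, ∀ x, g • x = A x + g • (0 : C)) {γ : ℝ → G} (h0 : γ 0 = 1)
    (hm : ∀ s t, γ (s + t) = γ s * γ t) {X : C → C} (hX : ∀ y, HasDerivAt (fun t => γ t • y) (X y) 0)
    {v : C} (hs : ∀ g : G, g • v = v → ∀ y : C, g • y = y) (hv : X v = 0) (y : C) : X y = 0 := by
  have := hX y
  rw [funext fun t => hs _ (flow_fix aff h0 hm (hv ▸ hX v) t) y] at this
  exact this.unique (hasDerivAt_const _ _)

namespace GA
variable (D : GA R B S C L)

theorem hasDerivAt_act {u : ℝ → R} {ξ : L} (h0 : u 0 = 0) (he : HasDerivAt u (D.j ξ) 0)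
    {x : ℝ → C} {y : C} (hx : HasDerivAt x y 0) :
    HasDerivAt (fun t => D.act (u t) (x t)) (D.d (x 0) ξ + y) 0 := by
  have ha := D.pa.hasFDerivAt.comp_hasDerivAt 0 hx
  have hs := D.ps.hasFDerivAt.comp_hasDerivAt 0 hx
  have h1 := (ha.add (D.l.hasDerivAt_of_bilinear (fun _ => he) fun _ => ha)).sub
    (D.del.hasFDerivAt.comp_hasDerivAt _ he)
  have h2 := h1.add (D.r.hasDerivAt_of_bilinear
    (fun _ => D.st.hasFDerivAt.comp_hasDerivAt _ he) fun _ => h1)
  have h3 := hs.add ((D.a.hasDerivAt_of_bilinear (fun _ => he) fun _ => hs).add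
    (D.ds.hasFDerivAt.comp_hasDerivAt _ he))
  refine (D.mk'.hasFDerivAt.comp_hasDerivAt _ (h2.prodMk h3)).congr_deriv ?_
  conv_rhs => rw [d_apply, ← D.mk_p y, ← map_add]
  congr 1
  simp [h0, D.st_j]
  constructor <;> abel

variable [CompleteSpace R]

/-- one parameter subgroups -/
theorem exists_flow (ξ : L) : ∃ γ : ℝ → D.Gr, γ 0 = 1 ∧ (∀ s t, γ (s + t) = γ s * γ t) ∧
    HasDerivAt (fun t => (γ t).v) (D.j ξ) 0 := by
  letI : NormedAlgebra ℚ (R × ℝ →L[ℝ] R × ℝ) := .restrictScalars ℚ ℝ _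
  let A : R × ℝ →L[ℝ] R × ℝ :=
    ((D.m (D.j ξ)).coprod (ContinuousLinearMap.toSpanSingleton ℝ (D.j ξ))).prod 0
  let Rw : R → R × ℝ →L[ℝ] R × ℝ := fun w =>
    1 + ((D.m.flip w).coprod (ContinuousLinearMap.toSpanSingleton ℝ w)).prod 0
  have hc : ∀ w, Commute A (Rw w) := fun w => ContinuousLinearMap.ext fun p => by
    simp [A, Rw, D.m_assoc]
    abel
  let U : ℝ → R × ℝ := fun t => NormedSpace.exp (t • A) (0, 1)
  have hU : ∀ t, HasDerivAt U (A (U t)) t := fun t => by
    simpa using (hasDerivAt_exp_smul_const' A t).clm_apply (hasDerivAt_const t ((0, 1) : R × ℝ))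
  have U0 : U 0 = (0, 1) := by simp [U]
  have U2 : ∀ t, (U t).2 = 1 := fun t => by
    have h : ∀ t, HasDerivAt (fun t => (U t).2) 0 t := fun t =>
      (ContinuousLinearMap.snd ℝ R ℝ).hasFDerivAt.comp_hasDerivAt t (hU t)
    rw [is_const_of_deriv_eq_zero (fun s => (h s).differentiableAt) (fun s => (h s).deriv) t 0, U0]
  have U1 : ∀ t, HasDerivAt (fun t => (U t).1) (D.m (D.j ξ) (U t).1 + D.j ξ) t := fun t => by
    refine ((ContinuousLinearMap.fst ℝ R ℝ).hasFDerivAt.comp_hasDerivAt t (hU t)).congr_deriv ?_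
    simp [A, U2]
  have hn : ∀ t, D.nn (U t).1 = 0 := fun t => by
    have h : ∀ t, HasDerivAt (fun t => D.nn (U t).1) 0 t := fun t => by
      have h1 := D.st.hasFDerivAt.comp_hasDerivAt t (U1 t)
      refine (((U1 t).add h1).add
        (D.m.hasDerivAt_of_bilinear (fun _ => h1) fun _ => U1 t)).congr_deriv ?_
      simp [D.st_m, D.st_j, D.m_assoc]
      abel
    rw [is_const_of_deriv_eq_zero (fun s => (h s).differentiableAt) (fun s => (h s).deriv) t 0, U0]
    simp [nn]
  refine ⟨fun t => ⟨_, hn t⟩, Gr.ext (congrArg Prod.fst U0), fun s t => Gr.ext ?_,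
    (U1 0).congr_deriv (by simp [U0])⟩
  have e : U t = Rw (U t).1 (0, 1) := Prod.ext (by simp [Rw]) (by simp [Rw, U2])
  have : U (s + t) = Rw (U t).1 (U s) := by
    show NormedSpace.exp ((s + t) • A) (0, 1) = _
    rw [add_smul, NormedSpace.exp_add_of_commute ((Commute.refl A).smul_left s |>.smul_right t),
      ContinuousLinearMap.mul_apply]
    show NormedSpace.exp (s • A) (U t) = _
    rw [e, ← ContinuousLinearMap.mul_apply, ((hc _).smul_left s).exp_left.eq, ← e]
    rfl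
  show (U (s + t)).1 = D.o (U s).1 (U t).1
  rw [this]
  simp [Rw, U2, o]
  abel

/-- the infinitesimal stabiliser of a free point acts trivially -/
theorem d_eq_zero {x : C} (hs : ∀ g : D.Gr, g • x = x → ∀ y : C, g • y = y) {ξ : L}
    (h : D.d x ξ = 0) (y : C) : D.d y ξ = 0 := by
  obtain ⟨γ, h0, hm, hd⟩ := D.exists_flow ξ
  exact gen_eq_zero (fun g => D.aff g.v) h0 hm (X := fun y => D.d y ξ) (fun y =>
    (D.hasDerivAt_act (by rw [h0, v_one]) hd (hasDerivAt_const (0 : ℝ) y)).congr_deriv (add_zero _))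
    hs h y

end GA

namespace GX
variable (X : GX R B S C L)

theorem aff (a : X.Gx) : ∃ A : C →L[ℝ] C, ∀ x, a • x = A x + a • (0 : C) := by
  obtain ⟨A, hA⟩ := X.toGA.aff a.g.v
  refine ⟨A ∘L X.ρ a.ζ, fun v => (hA _).trans ?_⟩
  rw [GX.smul_def, map_zero]; rfl

theorem d_eq_zero [CompleteSpace R] {x : C} (hs : ∀ a : X.Gx, a • x = x → ∀ y : C, a • y = y)
    {q : L × ℝ} (h : X.d x q = 0) (y : C) : X.d y q = 0 := by
  obtain ⟨γ, h0, hm, hd⟩ := X.toGA.exists_flow q.1
  refine gen_eq_zero X.aff (γ := fun t => mk₂ (γ t) (Circle.exp (t * q.2))) ?_ (fun s t => ?_)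
    (X := fun y => X.d y q) (fun y => ?_) hs h y
  · rw [h0, zero_mul, Circle.exp_zero]; rfl
  · rw [hm, add_mul, Circle.exp_add]; rfl
  · have h1 := HasFDerivAt.comp_hasDerivAt_of_eq (0 : ℝ) X.der.hasFDerivAt
      ((hasDerivAt_id (0 : ℝ)).mul_const q.2) (by simp)
    have h2 := X.toGA.hasDerivAt_act (by rw [h0, GA.v_one]) hd
      (h1.clm_apply (hasDerivAt_const (0 : ℝ) y))
    exact h2.congr_deriv (by simp [d_apply])

end GX

end Crest.Agent.X212.Grp76
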