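import Crest.Agent.X212.Grp76.Prop

/-! Slice data for the gauge group and for the gauge group times the circle. -/

set_option autoImplicit false

noncomputable section

open Set Filter Topology Function
open scoped ContDiff

namespace Crest.Agent.X212.Grp76
open Slc61

variable {R B S C L H : Type*} [NormedAddCommGroup R] [NormedSpace ℝ R]
  [NormedAddCommGroup B] [NormedSpace ℝ B] [NormedAddCommGroup S] [NormedSpace ℝ S]
  [NormedAddCommGroup C] [NormedSpace ℝ C] [NormedAddCommGroup L] [NormedSpace ℝ L]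
  [NormedAddCommGroup H] [NormedSpace ℝ H]

theorem closedOrb_of_propAt {G : Type*} [Group G] [TopologicalSpace G] [MulAction G C]
    [ContinuousSMul G C] {Z : Set C} (h : ∀ a ∈ Z, ∀ b ∈ Z, PropAt G a b) : ClosedOrb G Z :=
  closedOrb_of_proper fun x g a b _ ha hb h1 h2 => h a ha b hb x g h1 h2

/-- properness is invariant under the group -/
theorem PropAt.smul {G : Type*} [Group G] [TopologicalSpace G] [IsTopologicalGroup G]
    [MulAction G C] [ContinuousSMul G C] {a b : C} (h : PropAt G a b) (g k : G) :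
    PropAt G (g • a) (k • b) := by
  intro xn gn h1 h2
  obtain ⟨φ, w, hφ, hw⟩ := h (fun n => g⁻¹ • xn n) (fun n => k⁻¹ * gn n * g)
    (by simpa using h1.const_smul g⁻¹) (by simpa [mul_smul] using h2.const_smul k⁻¹)
  refine ⟨φ, k * w * g⁻¹, hφ, ((hw.const_mul k).mul_const g⁻¹).congr fun n => ?_⟩
  simp [mul_assoc]

theorem closedOrb_sat {G : Type*} [Group G] [TopologicalSpace G] [IsTopologicalGroup G]
    [MulAction G C] [ContinuousSMul G C] {Z Z' : Set C} (h : ∀ a ∈ Z, ∀ b ∈ Z, PropAt G a b)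
    (hZ : ∀ x ∈ Z', ∃ g : G, ∃ a ∈ Z, g • a = x) : ClosedOrb G Z' :=
  closedOrb_of_propAt fun a ha b hb => by
    obtain ⟨g, a', ha', rfl⟩ := hZ a ha
    obtain ⟨k, b', hb', rfl⟩ := hZ b hb
    exact (h a' ha' b' hb').smul g k

namespace GA
variable (D : GA R B S C L) [CompleteSpace R]

theorem tame {x : C} (hp : PropAt D.Gr x x) (hs : ∀ g : D.Gr, g • x = x → ∀ y : C, g • y = y) :
    Tame D.e x := tame_of_proper hp hs fun _ hU => D.image_e_mem hU

/-- Slice data for the gauge group. -/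
def slice (x : C) (σ : C →L[ℝ] H) (hb : Bijective (σ.comp (D.d x))) (hp : PropAt D.Gr x x)
    (hs : ∀ g : D.Gr, g • x = x → ∀ y : C, g • y = y) : SliceData D.Gr L H x where
  e := D.e
  d := D.d x
  γ y := σ (y - x)
  σ := σ
  e_zero := D.e_zero
  act := D.hasStrict_act x
  gf := by
    simpa using σ.hasStrictFDerivAt.comp x ((hasStrictFDerivAt_id x).sub_const x)
  gf0 := by simp
  bij := hb
  tame := D.tame hp hs

theorem exists_slice (x : C) (σ : C →L[ℝ] H) (hb : Bijective (σ.comp (D.d x)))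
    (hp : PropAt D.Gr x x) (hs : ∀ g : D.Gr, g • x = x → ∀ y : C, g • y = y) :
    ∃ Q : SliceData D.Gr L H x, ContDiff ℝ ∞ Q.γ ∧ Q.σ = σ ∧ Q.d = D.d x ∧
      ∀ y, Q.γ y = σ (y - x) :=
  ⟨D.slice x σ hb hp hs, σ.contDiff.comp (contDiff_id.sub contDiff_const), rfl, rfl, fun _ => rfl⟩

end GA

/-- A gauge algebra with a commuting linear circle action. -/
structure GX (R B S C L : Type*) [NormedAddCommGroup R] [NormedSpace ℝ R]
    [NormedAddCommGroup B] [NormedSpace ℝ B] [NormedAddCommGroup S] [NormedSpace ℝ S]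
    [NormedAddCommGroup C] [NormedSpace ℝ C] [NormedAddCommGroup L] [NormedSpace ℝ L]
    extends GA R B S C L where
  ρ : Circle →* (C →L[ℝ] C)
  J : C →L[ℝ] C
  cont : Continuous ρ
  der : HasStrictFDerivAt (fun t : ℝ => ρ (Circle.exp t))
    (ContinuousLinearMap.toSpanSingleton ℝ J) 0
  comm : ∀ u ζ x, toGA.nn u = 0 → toGA.act u (ρ ζ x) = ρ ζ (toGA.act u x)

namespace GX
variable (X : GX R B S C L)

/-- The gauge group times the circle. -/
def Gx : Type _ := X.toGA.Gr × Circle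

instance : Group X.Gx := inferInstanceAs (Group (X.toGA.Gr × Circle))
instance : TopologicalSpace X.Gx := inferInstanceAs (TopologicalSpace (X.toGA.Gr × Circle))
instance : IsTopologicalGroup X.Gx := inferInstanceAs (IsTopologicalGroup (X.toGA.Gr × Circle))

variable {X}

/-- constructor -/
def mk₂ (g : X.toGA.Gr) (ζ : Circle) : X.Gx := (g, ζ)
/-- the gauge transformation -/
def Gx.g (a : X.Gx) : X.toGA.Gr := a.1
/-- the phase -/
def Gx.ζ (a : X.Gx) : Circle := a.2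

@[simp] theorem g_mk (g : X.toGA.Gr) (ζ : Circle) : (mk₂ g ζ).g = g := rfl
@[simp] theorem ζ_mk (g : X.toGA.Gr) (ζ : Circle) : (mk₂ g ζ).ζ = ζ := rfl
@[simp] theorem g_mul (a b : X.Gx) : (a * b).g = a.g * b.g := rfl
@[simp] theorem ζ_mul (a b : X.Gx) : (a * b).ζ = a.ζ * b.ζ := rfl
@[simp] theorem g_one : (1 : X.Gx).g = 1 := rfl
@[simp] theorem ζ_one : (1 : X.Gx).ζ = 1 := rfl
@[simp] theorem g_inv (a : X.Gx) : a⁻¹.g = a.g⁻¹ := rfl
@[simp] theorem ζ_inv (a : X.Gx) : a⁻¹.ζ = a.ζ⁻¹ := rfl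

theorem smul_ρ (g : X.toGA.Gr) (ζ : Circle) (x : C) : g • X.ρ ζ x = X.ρ ζ (g • x) :=
  X.comm _ _ _ g.nn_v

instance : MulAction X.Gx C where
  smul a x := a.g • X.ρ a.ζ x
  one_smul x := by
    show (1 : X.toGA.Gr) • X.ρ 1 x = x
    simp
  mul_smul a b x := by
    show (a.g * b.g) • X.ρ (a.ζ * b.ζ) x = a.g • X.ρ a.ζ (b.g • X.ρ b.ζ x)
    rw [mul_smul, map_mul, ← smul_ρ]; rfl

theorem smul_def (a : X.Gx) (x : C) : a • x = a.g • X.ρ a.ζ x := rfl

instance : ContinuousSMul X.Gx C where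
  continuous_smul := by
    have h1 : Continuous fun p : X.Gx × C => p.1.g := continuous_fst.comp continuous_fst
    have h2 : Continuous fun p : X.Gx × C => X.ρ p.1.ζ :=
      X.cont.comp (continuous_snd.comp continuous_fst)
    exact h1.smul (h2.clm_apply continuous_snd)

theorem propAt {x y : C} (h : ∀ ζ, PropAt X.toGA.Gr (X.ρ ζ x) y) : PropAt X.Gx x y := by
  intro xn a h1 h2
  obtain ⟨ζ, φ, hφ, hζ⟩ := CompactSpace.tendsto_subseq fun n => (a n).ζ
  have h3 : Tendsto (fun n => X.ρ (a (φ n)).ζ (xn (φ n))) atTop (𝓝 (X.ρ ζ x)) :=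
    ((isBoundedBilinearMap_apply.continuous.tendsto (X.ρ ζ, x)).comp
      (((X.cont.tendsto ζ).comp hζ).prodMk_nhds (h1.comp hφ.tendsto_atTop)) :)
  obtain ⟨ψ, k, hψ, hk⟩ := h ζ _ (fun n => (a (φ n)).g) h3 (h2.comp hφ.tendsto_atTop)
  exact ⟨φ ∘ ψ, mk₂ k ζ, hφ.comp hψ, hk.prodMk_nhds (hζ.comp hψ.tendsto_atTop)⟩

variable (X) [CompleteSpace R]

/-- chart -/
def e (q : L × ℝ) : X.Gx := mk₂ (X.toGA.e q.1) (Circle.exp q.2)

omit [CompleteSpace R] in
/-- infinitesimal action -/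
def d (x : C) : L × ℝ →L[ℝ] C :=
  (X.toGA.d x).coprod (ContinuousLinearMap.toSpanSingleton ℝ (X.J x))

omit [CompleteSpace R] in
theorem d_apply (x : C) (q : L × ℝ) : X.d x q = X.toGA.d x q.1 + q.2 • X.J x := rfl

theorem e_zero : X.e 0 = 1 := by
  rw [e, Prod.fst_zero, Prod.snd_zero, X.toGA.e_zero, Circle.exp_zero]; rfl

theorem hasStrict_act (x : C) : HasStrictFDerivAt (fun q : (L × ℝ) × C => X.e q.1 • q.2)
    ((X.d x).coprod (ContinuousLinearMap.id ℝ C)) (0, x) := by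
  have h1 : HasStrictFDerivAt (fun q : (L × ℝ) × C => X.ρ (Circle.exp q.1.2))
      ((ContinuousLinearMap.toSpanSingleton ℝ X.J).comp
        ((ContinuousLinearMap.snd ℝ L ℝ).comp (ContinuousLinearMap.fst ℝ (L × ℝ) C))) (0, x) :=
    HasStrictFDerivAt.comp (f := fun q : (L × ℝ) × C => q.1.2) ((0, x) : (L × ℝ) × C) X.der
      ((ContinuousLinearMap.snd ℝ L ℝ).comp
        (ContinuousLinearMap.fst ℝ (L × ℝ) C)).hasStrictFDerivAt
  have h2 := h1.clm_apply (hasStrictFDerivAt_snd (𝕜 := ℝ) (p := ((0, x) : (L × ℝ) × C)))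
  have h3 := (((ContinuousLinearMap.fst ℝ L ℝ).comp
    (ContinuousLinearMap.fst ℝ (L × ℝ) C)).hasStrictFDerivAt (x := (0, x))).prodMk h2
  have h4 := X.toGA.hasStrict_act x
  have h5 := HasStrictFDerivAt.comp (g := fun q : L × C => X.toGA.e q.1 • q.2)
    ((0, x) : (L × ℝ) × C) (by simpa using h4) h3
  refine h5.congr_fderiv (ContinuousLinearMap.ext fun q => ?_)
  simp [d_apply, add_assoc, add_comm]

theorem image_e_mem {U : Set (L × ℝ)} (hU : U ∈ 𝓝 (0 : L × ℝ)) : X.e '' U ∈ 𝓝 (1 : X.Gx) := by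
  obtain ⟨U1, h1, U2, h2, h⟩ := mem_nhds_prod_iff.1 hU
  have h3 : Circle.exp '' U2 ∈ 𝓝 (1 : Circle) := by
    rw [← Circle.exp_zero]
    exact isLocalHomeomorph_circleExp.isOpenMap.image_mem_nhds h2
  refine mem_of_superset (prod_mem_nhds (X.toGA.image_e_mem h1) h3) ?_
  rintro ⟨_, _⟩ ⟨⟨ξ, hξ, rfl⟩, ⟨t, ht, rfl⟩⟩
  exact ⟨(ξ, t), h ⟨hξ, ht⟩, rfl⟩

theorem tame {x : C} (hp : PropAt X.Gx x x) (hs : ∀ a : X.Gx, a • x = x → ∀ y : C, a • y = y) :
    Tame X.e x := tame_of_proper hp hs fun _ hU => X.image_e_mem hU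

/-- Slice data for the extended group. -/
def slice (x : C) (σ : C →L[ℝ] H) (hb : Bijective (σ.comp (X.d x))) (hp : PropAt X.Gx x x)
    (hs : ∀ a : X.Gx, a • x = x → ∀ y : C, a • y = y) : SliceData X.Gx (L × ℝ) H x where
  e := X.e
  d := X.d x
  γ y := σ (y - x)
  σ := σ
  e_zero := X.e_zero
  act := X.hasStrict_act x
  gf := by
    simpa using σ.hasStrictFDerivAt.comp x ((hasStrictFDerivAt_id x).sub_const x)
  gf0 := by simp
  bij := hb
  tame := X.tame hp hs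

omit [CompleteSpace R] in
/-- A row for the circle direction which kills the gauge directions. -/
theorem exists_row [CompleteSpace L] [CompleteSpace H] {d : L →L[ℝ] C} {σ : C →L[ℝ] H}
    (hb : Bijective (σ.comp d)) {v : C} (hv : ∀ ξ, d ξ ≠ v) :
    ∃ ℓ : C →L[ℝ] ℝ, (∀ ξ, ℓ (d ξ) = 0) ∧ ℓ v = 1 := by
  let A : L ≃L[ℝ] H := ContinuousLinearEquiv.ofBijective (σ.comp d)
    (LinearMap.ker_eq_bot.2 hb.1) (LinearMap.range_eq_top.2 hb.2)
  let π : C →L[ℝ] C := ContinuousLinearMap.id ℝ C - d.comp ((A.symm : H →L[ℝ] L).comp σ)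
  have hπ : π v ≠ 0 := fun h => hv _ (sub_eq_zero.1 h).symm
  obtain ⟨f, -, hf⟩ := exists_dual_vector ℝ (π v) (norm_ne_zero_iff.2 hπ)
  refine ⟨‖π v‖⁻¹ • f.comp π, fun ξ => ?_, ?_⟩
  · have : π (d ξ) = 0 := by
      have h : A.symm (σ (d ξ)) = ξ := A.symm_apply_apply ξ
      simp [π, h]
    simp [this]
  · simp [hf, hπ]

omit [CompleteSpace R] in
theorem bij_row {x : C} {σ : C →L[ℝ] H} (hb : Bijective (σ.comp (X.toGA.d x))) {ℓ : C →L[ℝ] ℝ}
    (h0 : ∀ ξ, ℓ (X.toGA.d x ξ) = 0) (h1 : ℓ (X.J x) = 1) :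
    Bijective ((σ.prod ℓ).comp (X.d x)) := by
  have key : ∀ q : L × ℝ, (σ.prod ℓ).comp (X.d x) q =
      (σ.comp (X.toGA.d x) q.1 + q.2 • σ (X.J x), q.2) := fun q => by
    simp [d_apply, h0, h1]
  constructor
  · rw [injective_iff_map_eq_zero]
    rintro ⟨ξ, t⟩ h
    rw [key, Prod.mk_eq_zero] at h
    obtain ⟨h2, rfl⟩ := h
    have : ξ = 0 := hb.1 (by simpa using h2)
    simp [this]
  · rintro ⟨w, t⟩
    obtain ⟨ξ, hξ⟩ := hb.2 (w - t • σ (X.J x))
    exact ⟨(ξ, t), by rw [key, hξ]; simp⟩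

/-- **Slice data for `G × S¹`** from the Coulomb row of the gauge group. -/
theorem exists_slice [CompleteSpace L] [CompleteSpace H] (x : C) (σ : C →L[ℝ] H)
    (hb : Bijective (σ.comp (X.toGA.d x))) (hv : ∀ ξ, X.toGA.d x ξ ≠ X.J x)
    (hp : PropAt X.Gx x x) (hs : ∀ a : X.Gx, a • x = x → ∀ y : C, a • y = y) :
    ∃ (ℓ : C →L[ℝ] ℝ) (Q : SliceData X.Gx (L × ℝ) (H × ℝ) x), ContDiff ℝ ∞ Q.γ ∧
      Q.σ = σ.prod ℓ ∧ Q.d = X.d x ∧ ∀ y, Q.γ y = (σ (y - x), ℓ (y - x)) := by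
  obtain ⟨ℓ, h0, h1⟩ := exists_row hb hv
  exact ⟨ℓ, X.slice x (σ.prod ℓ) (X.bij_row hb h0 h1) hp hs,
    (σ.prod ℓ).contDiff.comp (contDiff_id.sub contDiff_const), rfl, rfl, fun _ => rfl⟩

end GX

end Crest.Agent.X212.Grp76
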