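import Crest.Agent.X212.Grp76.Act

/-! Smooth compactly supported gauge transformations are dense. -/

set_option autoImplicit false
set_option linter.unusedSectionVars false
noncomputable section
open scoped Manifold ContDiff Topology InnerProductSpace
open MeasureTheory Set Function Filter

namespace Crest.Agent.X212.Grp76
open An An.Pre Sob92 Wz78

section polar
variable {R : Type*} [NormedAddCommGroup R] [NormedSpace ℝ R] (m : R →L[ℝ] R →L[ℝ] R)
  (st : R →L[ℝ] R)

/-- the equation of the polar decomposition -/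
def Lm (p : R × R) : R × R :=
  (p.1, p.2 + (1 / 2 : ℝ) • p.1 + (1 / 2 : ℝ) • (m p.1 p.2 + m (st p.2) (p.1 + p.2 + m p.1 p.2)))

theorem contDiff_Lm : ContDiff ℝ ω (Lm m st) := by unfold Lm; fun_prop

theorem Lm_zero : Lm m st 0 = 0 := by simp [Lm]

theorem hasStrict_Lm : HasStrictFDerivAt (Lm m st) ((ContinuousLinearEquiv.skewProd (.refl ℝ R)
    (.refl ℝ R) ((1 / 2 : ℝ) • ContinuousLinearMap.id ℝ R) : (R × R) ≃L[ℝ] R × R) :
      R × R →L[ℝ] R × R) 0 := by
  have h1 := hasStrictFDerivAt_fst (𝕜 := ℝ) (p := (0 : R × R))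
  have h2 := hasStrictFDerivAt_snd (𝕜 := ℝ) (p := (0 : R × R))
  have h3 := m.hasStrictFDerivAt_of_bilinear h1 h2
  have h4 := m.hasStrictFDerivAt_of_bilinear (st.hasStrictFDerivAt.comp 0 h2) ((h1.add h2).add h3)
  refine (h1.prodMk ((h2.add (h1.const_smul (1 / 2 : ℝ))).add
    ((h3.add h4).const_smul (1 / 2 : ℝ)))).congr_fderiv (ContinuousLinearMap.ext fun p => ?_)
  simp [ContinuousLinearEquiv.skewProd_apply]

variable [CompleteSpace R]

/-- its solution -/
def om (n : R) : R := ((hasStrict_Lm m st).localInverse _ _ _ (n, 0)).2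

theorem contDiffAt_om : ContDiffAt ℝ ω (om m st) 0 := by
  have h := ((contDiff_Lm m st).contDiffAt (x := 0)).to_localInverse
    (hasStrict_Lm m st).hasFDerivAt (by simp)
  rw [Lm_zero] at h
  exact (ContDiffAt.comp (f := fun n : R => (n, (0 : R))) 0 h (by fun_prop)).snd

theorem ev_om : ∀ᶠ p in 𝓝 (0 : R × R), (Lm m st p).2 = 0 → om m st p.1 = p.2 :=
  (hasStrict_Lm m st).eventually_left_inverse.mono fun p h e => by
    rw [om, show (p.1, (0 : R)) = Lm m st p from Prod.ext rfl e.symm, h]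

theorem om_zero : om m st 0 = 0 := (ev_om m st).self_of_nhds (by rw [Lm_zero]; rfl)

theorem ev_Lm : ∀ᶠ n in 𝓝 (0 : R), (Lm m st (n, om m st n)).2 = 0 := by
  have h := (hasStrict_Lm m st).eventually_right_inverse
  rw [Lm_zero] at h
  have h2 : Tendsto (fun n : R => (n, (0 : R))) (𝓝 0) (𝓝 0) := Continuous.tendsto' (by fun_prop) _ _ rfl
  filter_upwards [h2.eventually h] with n hn
  have e : (n, om m st n) = (hasStrict_Lm m st).localInverse _ _ _ (n, 0) :=
    Prod.ext (congrArg Prod.fst hn).symm rfl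
  rw [e, hn]

end polar

theorem GA.nn_o_of_Lm {R B S C L : Type*} [NormedAddCommGroup R] [NormedSpace ℝ R]
    [NormedAddCommGroup B] [NormedSpace ℝ B] [NormedAddCommGroup S] [NormedSpace ℝ S]
    [NormedAddCommGroup C] [NormedSpace ℝ C] [NormedAddCommGroup L] [NormedSpace ℝ L]
    (D : GA R B S C L) {b w : R} (h : (Lm D.m D.st (D.nn b, w)).2 = 0) : D.nn (D.o b w) = 0 := by
  have e : D.nn (D.o b w) = D.o (D.st w) (D.o (D.nn b) w) := by
    simp only [D.nn_eq, D.st_o, D.o_assoc]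
  have h1 : (1 / 2 : ℝ) • (w - D.st w) + (1 / 2 : ℝ) • D.nn (D.o b w) = 0 := by
    rw [← h, e]
    simp only [Lm, GA.o]
    module
  exact D.nn_eq_of_Ψ (u := D.o b w) (ξ := D.q ((1 / 2 : ℝ) • (D.o b w - D.st (D.o b w)))) (by
    have h2 := congrArg D.st h1
    simp only [map_add, map_smul, map_sub, D.st_st, D.st_nn, map_zero] at h2
    rw [D.j_q _ (by simp [D.st_st, ← smul_neg]), GA.Ψ]
    linear_combination (norm := module) (1 / 2 : ℝ) • h1 + (1 / 2 : ℝ) • h2)

variable {E : Type} [NormedAddCommGroup E] [NormedSpace ℝ E] [FiniteDimensional ℝ E]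
  [MeasurableSpace E] [BorelSpace E]
  {HM : Type} [TopologicalSpace HM] {I : ModelWithCorners ℝ E HM} [I.Boundaryless]
  {M : Type} [TopologicalSpace M] [ChartedSpace HM M] [IsManifold I ∞ M]
  [MeasurableSpace M] [T2Space M] [BorelSpace M] [SecondCountableTopology M]
  {ι : Type} [Fintype ι] {κ : Type} [Fintype κ] [DecidableEq κ]

namespace QB.Hyp
variable {Q : QB M ι κ} {F : Fr I M ι} {k : ℕ} {Z : Type} [NormedAddCommGroup Z] [NormedSpace ℝ Z]
  (H : Q.Hyp F k)
include H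

theorem val_Lm (n w : Q.R F k) (x : M) : F.val _ _ (Lm (Q.mH F k) (Q.tH F k) (n, w)).2 x =
    (Lm mA tA (F.val _ _ n x, F.val _ _ w x)).2 := by
  simp only [Lm, val_add, val_smul, Pi.add_apply, Pi.smul_apply, H.val_m, H.val_t]

/-- **Density of the smooth gauge transformations.** -/
theorem dense_sm : Dense {g : (H.ga Z).Gr | Sm I (H.gv g) ∧ HasCompactSupport (H.gv g)} := by
  intro g
  let D := H.ga Z
  rw [GA.isEmbedding_v.closure_eq_preimage_closure_image, mem_preimage]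
  have : (𝓝[range (F.toH (k + 1) Q.h)] g.v).NeBot :=
    mem_closure_iff_nhdsWithin_neBot.1 (F.dense_toH _ _ g.v)
  have hn : Tendsto D.nn (𝓝 g.v) (𝓝 0) := D.continuous_nn.tendsto' _ _ g.nn_v
  have hw : Tendsto (fun b => om D.m D.st (D.nn b)) (𝓝 g.v) (𝓝 0) := by
    have := (contDiffAt_om D.m D.st).continuousAt.tendsto.comp hn
    rwa [om_zero] at this
  have ht : Tendsto (fun b => D.o b (om D.m D.st (D.nn b))) (𝓝 g.v) (𝓝 g.v) := by
    have h1 : Continuous fun p : Q.R F k × Q.R F k => D.o p.1 p.2 := by unfold GA.o; fun_prop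
    have h2 := (h1.tendsto (g.v, 0)).comp (tendsto_id.prodMk_nhds hw)
    rwa [D.o_zero] at h2
  refine mem_closure_of_tendsto (ht.mono_left (nhdsWithin_le_nhds (s := range (F.toH _ _)))) ?_
  have h1 : Tendsto (Prod.fst : HS κ × HS κ → HS κ) (𝓝 0) (𝓝 0) := continuous_fst.tendsto' _ _ rfl
  obtain ⟨ε, ε0, hε⟩ := Metric.eventually_nhds_iff.1 ((ev_om (mA (κ := κ)) tA).and
    (h1.eventually ((contDiffAt_om (mA (κ := κ)) tA).eventually (by simp))))
  have sm : ∀ {f : Q.R F k → Q.R F k}, Tendsto f (𝓝 g.v) (𝓝 0) →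
      ∀ᶠ b in 𝓝 g.v, ∀ x, ‖F.val _ _ (f b) x‖ < ε := fun {f} hf => by
    have h2 : Tendsto (fun b => √|H.sup.choose| * ‖f b‖) (𝓝 g.v) (𝓝 0) := by
      simpa using hf.norm.const_mul √|H.sup.choose|
    exact (h2.eventually (gt_mem_nhds ε0)).mono fun b hb x =>
      (norm_val_le H.hS H.k5 _ x).trans_lt hb
  filter_upwards [self_mem_nhdsWithin, nhdsWithin_le_nhds (hn.eventually (ev_Lm D.m D.st)),
    nhdsWithin_le_nhds (sm hn), nhdsWithin_le_nhds (sm hw)] with b ⟨u, hu⟩ h2 h3 h4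
  have e1 : F.val _ _ b = u.1 := hu ▸ val_toH H.hS H.k5 u
  have h5 := fun x => hε (y := (F.val _ _ (D.nn b) x, F.val _ _ (om D.m D.st (D.nn b)) x))
    (by rw [dist_zero_right, Prod.norm_mk]; exact max_lt (h3 x) (h4 x))
  have e2 : ∀ x, F.val _ _ (om D.m D.st (D.nn b)) x = om mA tA (F.val _ _ (D.nn b) x) := fun x =>
    ((h5 x).1 (by
      rw [← H.val_Lm]
      exact (congrArg (fun t => F.val _ _ t x) h2).trans (congrFun val_zero x))).symm
  have s1 : Sm I (F.val _ _ (D.nn b)) := by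
    rw [funext (H.val_nn b), e1]
    have := tA.contMDiff.comp u.2.1
    exact (u.2.1.add this).add (smooth_bil mA this u.2.1)
  have s2 : Sm I (F.val _ _ (om D.m D.st (D.nn b))) := by
    rw [funext e2]
    exact fun x => ContMDiffAt.comp (g := om mA tA) x ((h5 x).2.of_le le_top).contMDiffAt (s1 x)
  refine ⟨⟨_, D.nn_o_of_Lm h2⟩, ?_, rfl⟩
  have e3 := funext (H.val_o (Z := Z) b (om D.m D.st (D.nn b)))
  show Sm I (F.val _ _ _) ∧ HasCompactSupport (F.val _ _ _)
  refine e3 ▸ ⟨((e1 ▸ u.2.1).add s2).add (smooth_bil mA (e1 ▸ u.2.1) s2),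
    u.2.2.1.mono fun x hx h0 => hx ?_⟩
  have e4 : F.val _ _ (D.nn b) x = 0 := by simp [D, H.val_nn, e1, h0]
  simp [e2, e4, e1, h0, om_zero]

end QB.Hyp

end Crest.Agent.X212.Grp76
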