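import Crest.Agent.X212.Grp76.Act
import Crest.Agent.X212.Nk89.Hdy

/-! Properness of the action of the Sobolev gauge group; regularity of gauge transformations. -/

set_option autoImplicit false
set_option linter.unusedSectionVars false
noncomputable section
open scoped Manifold ContDiff Topology InnerProductSpace
open MeasureTheory Set Function Filter

namespace Crest.Agent.X212.Grp76
open An An.Pre Sob92 Wz78

variable {E : Type} [NormedAddCommGroup E] [NormedSpace ℝ E] [FiniteDimensional ℝ E]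
  [MeasurableSpace E] [BorelSpace E]
  {HM : Type} [TopologicalSpace HM] {I : ModelWithCorners ℝ E HM} [I.Boundaryless]
  {M : Type} [TopologicalSpace M] [ChartedSpace HM M] [IsManifold I ∞ M]
  [MeasurableSpace M] [T2Space M] [BorelSpace M] [SecondCountableTopology M]
  {ι : Type} [Fintype ι] {κ : Type} [Fintype κ] [DecidableEq κ]

section nice
variable {N N' N'' : Type} [NormedAddCommGroup N] [NormedSpace ℝ N] [NormedAddCommGroup N']
  [NormedSpace ℝ N'] [NormedAddCommGroup N''] [NormedSpace ℝ N''] {F : Pre I M ι}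

/-- solutions of a linear total differential equation with smooth coefficients are smooth -/
theorem sm_of_lin {ξ : M → N} (hd : MDifferentiable I 𝓘(ℝ, N) ξ) {A : ι → M → N →L[ℝ] N}
    {B : ι → M → N} (hA : ∀ a, Sm I (A a)) (hB : ∀ a, Sm I (B a))
    (h : ∀ a x, F.D a ξ x = A a x (ξ x) + B a x) : Sm I ξ := by
  refine contMDiff_infty.2 fun n => contMDiff_of_class F.sm (span_coef F)
    (fun _ u => ∃ (S : M → N →L[ℝ] N) (T : M → N), Sm I S ∧ Sm I T ∧ u = fun x => S x (ξ x) + T x)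
    ?_ ?_ n ξ ⟨fun _ => .id ℝ N, 0, contMDiff_const, contMDiff_const, by simp⟩
  · rintro _ ⟨S, T, hS, hT, rfl⟩
    exact (hS.continuous.clm_apply hd.continuous).add hT.continuous
  · rintro - _ ⟨S, T, hS, hT, rfl⟩
    have m1 := hS.mdifferentiable (by simp)
    have m2 := hT.mdifferentiable (by simp)
    have m3 : ∀ x, MDifferentiableAt I 𝓘(ℝ, N) (fun x => S x (ξ x)) x :=
      fun x => (m1 x).clm_apply (hd x)
    refine ⟨fun x => (m3 x).add (m2 x), fun a => ⟨fun x => F.D a S x + (S x).comp (A a x),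
      fun x => S x (B a x) + F.D a T x, (F.sm_D hS a).add (hS.clm_comp (hA a)),
      (hS.clm_apply (hB a)).add (F.sm_D hT a), funext fun x => ?_⟩⟩
    have e := dv_add (e := F.e a) (m3 x) (m2 x)
    rw [dv_app (m1 x) (hd x), ← D_def F a ξ, h] at e
    refine e.trans ?_
    simp only [map_add, _root_.add_apply, ContinuousLinearMap.comp_apply, D_def]
    abel

variable (F) in
/-- smooth, bounded and square integrable with all derivatives -/
def Nice (u : M → N) : Prop := F.Cb u ∧ ∀ j, FL F j u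

theorem cb_sm {u : M → N} (h : F.Cb u) : Sm I u := h.choose_spec.1

namespace Nice
variable {u v : M → N}

theorem sm (h : Nice F u) : Sm I u := cb_sm h.1

theorem of_hcs (h : Sm I u) (hc : HasCompactSupport u) : Nice F u :=
  ⟨Cb_of_hcs h hc, fun j => FL_of_hcs j h hc⟩

theorem add (h : Nice F u) (h' : Nice F v) : Nice F fun x => u x + v x :=
  ⟨Cb_add h.1 h'.1, fun j => ML.add F.sm h.sm h'.sm (h.2 j) (h'.2 j)⟩

theorem bil (B : N' →L[ℝ] N →L[ℝ] N'') {f : M → N'} (hf : F.Cb f) (h : Nice F u) :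
    Nice F fun x => B (f x) (u x) :=
  ⟨Cb_bil B hf h.1, fun j => (N2_mul B (cb_sm hf) h.sm (hf.choose_spec.2 j) (h.2 j)).1⟩

theorem bil' (B : N →L[ℝ] N' →L[ℝ] N'') {f : M → N'} (h : Nice F u) (hf : F.Cb f) :
    Nice F fun x => B (u x) (f x) := bil B.flip hf h

theorem app {f : M → N →L[ℝ] N'} (hf : F.Cb f) (h : Nice F u) : Nice F fun x => f x (u x) :=
  bil (ContinuousLinearMap.id ℝ _) hf h

theorem clm (L : N →L[ℝ] N') (h : Nice F u) : Nice F fun x => L (u x) := app (Cb_const L) h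

theorem sub (h : Nice F u) (h' : Nice F v) : Nice F fun x => u x - v x := by
  simp only [sub_eq_add_neg]
  exact h.add (h'.clm (-ContinuousLinearMap.id ℝ N))

theorem D (h : Nice F u) (a : ι) : Nice F (F.D a u) := ⟨Cb_D h.1 a, fun j => (h.2 (j + 1)).2 a⟩

theorem sum {α : Type} (s : Finset α) {f : α → M → N} (h : ∀ a, Nice F (f a)) :
    Nice F fun x => ∑ a ∈ s, f a x := by
  classical
  induction s using Finset.induction_on with
  | empty => exact of_hcs contMDiff_const HasCompactSupport.zero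
  | insert a s ha ih => simpa only [Finset.sum_insert ha] using (h a).add ih

theorem fm {V α : Type} [NormedAddCommGroup V] [InnerProductSpace ℝ V] [Fintype α]
    {f : M → Fm α V} (h : ∀ a, Nice F fun x => f x a) : Nice F f := by
  have : f = fun x => ∑ a, ij V a (f x a) := funext fun x => PiLp.ext fun a => (sum_ij _ a).symm
  rw [this]
  exact sum _ fun a => (h a).clm _

end Nice

/-- square integrable version of `sm_of_lin` -/
theorem fl_of_lin {ξ : M → N} (hd : Sm I ξ) (h0 : MemLp ξ 2 F.μ) {A : ι → M → N →L[ℝ] N}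
    {B : ι → M → N} (hA : ∀ a, F.Cb (A a)) (hB : ∀ a, Nice F (B a))
    (h : ∀ a x, F.D a ξ x = A a x (ξ x) + B a x) (j : ℕ) : FL F j ξ := by
  induction j with
  | zero => exact h0
  | succ j ih =>
    refine ⟨h0, fun a => ?_⟩
    rw [← D_def, funext (h a)]
    exact ML.add F.sm ((cb_sm (hA a)).clm_apply hd) (hB a).sm (N2_mul (ContinuousLinearMap.id ℝ _)
      (cb_sm (hA a)) hd ((hA a).choose_spec.2 j) ih).1 ((hB a).2 j)

end nice

section all
variable {V : Type} [NormedAddCommGroup V] [InnerProductSpace ℝ V] [CompleteSpace V]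
  {F : Fr I M ι} {p : M → V →L[ℝ] V} {u : M → V} {C : ℕ → ℝ}

theorem exists_val (hF : F.Tame C) (hu : Sm I u) {j : ℕ} (hj : 4 ≤ j) (hL : FL F.toPre j u)
    (hp : ∀ x, p x (u x) = u x) : ∃ h : F.H j p, F.val j p h = u :=
  let ⟨h, hh⟩ := exists_Is (Exh.of_tame hF) hu hL hp
  ⟨h, hh.val_eq (Sup.of_tame hF) hj hu.continuous⟩

/-- functions in all the Sobolev spaces -/
theorem all_iff (hF : F.Tame C) : (∀ j, 4 ≤ j → ∃ h : F.H j p, F.val j p h = u) ↔
    Nice F.toPre u ∧ ∀ x, p x (u x) = u x := by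
  have hS := Sup.of_tame hF
  refine ⟨fun h => ?_, fun h j hj => exists_val hF h.1.sm hj (h.1.2 j) h.2⟩
  choose g hg using fun n => h (n + 4) (by omega)
  have hs : Sm I u := contMDiff_infty.2 fun n => hg n ▸ contMDiff_val hS le_rfl _
  refine ⟨⟨⟨fun n => √|C 0| * ‖g n‖, hs, fun n => hg n ▸ CB_val hS n le_rfl _⟩, fun j => ?_⟩,
    fun x => hg 0 ▸ val_proj hS le_rfl _ x⟩
  exact (Is.FL_norm _ (hg j ▸ Is.val hS (by omega) (g j)) hs).1.of_le (by omega)

theorem nice_of_fl (hF : F.Tame C) (hu : Sm I u) (hL : ∀ j, FL F.toPre j u) : Nice F.toPre u :=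
  ((all_iff (p := triv M V) hF).1 fun j hj => exists_val hF hu hj (hL j) fun _ => rfl).1

end all

/-- the connection `ξ ↦ A' ξ - ξ A` -/
def mix (A A' : En κ) : En (κ × κ) :=
  hsL ∘L (ContinuousLinearMap.mul ℝ (En κ) A' - (ContinuousLinearMap.mul ℝ (En κ)).flip A) ∘L opL

theorem opL_mix (A A' : En κ) (ξ : HS κ) : opL (mix A A' ξ) = A' * opL ξ - opL ξ * A := opL_hsL _

theorem mix_skw {A A' : En κ} (h : Skw A) (h' : Skw A') : Skw (mix A A') := fun ξ η => by
  conv_lhs => rw [← hsL_opL η]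
  conv_rhs => rw [← hsL_opL ξ]
  change ⟪hsL (A' * opL ξ - opL ξ * A), _⟫_ℝ = -⟪_, hsL (A' * opL η - opL η * A)⟫_ℝ
  simp only [map_sub, inner_sub_left, inner_sub_right, inner_mul_l h', inner_mul_r h]
  ring

theorem mix_add (A : En κ) (α α' : HS κ) : mix (A + opL α) (A + opL α') = adc A + (mA α' - mO α) :=
  ContinuousLinearMap.ext fun ξ => opL_inj (by
    simp only [opL_mix, _root_.add_apply, _root_.sub_apply, map_add, map_sub, opL_adc, opL_mA,
      mO_apply]
    noncomm_ring)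

namespace QB
variable {Q : QB M ι κ} {F : Fr I M ι} {k : ℕ} {Z : Type} [NormedAddCommGroup Z] [NormedSpace ℝ Z]

namespace Hyp
variable (H : Q.Hyp F k)
include H

theorem val_T1' (v w : Q.C F k Z) (u : Q.R F k) (x : M) (a : ι) :
    F.val _ _ ((H.ga Z).T v w u).1 x a =
      nab I F.e (fun a x => mix (Q.conn F k v a x) (Q.conn F k w a x)) a (F.val _ _ u) x := by
  simp only [H.val_T1, nab, conn, mix_add, QB.ad, _root_.add_apply, _root_.sub_apply, mO_apply]
  abel

theorem DH_eq (v w : Q.C F k Z) (u : Q.R F k) (a : ι) : DH F.toPre k Q.h a u =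
    F.mulH k (Q.b F) (triv M _) (fun _ => pj _ a) ((H.ga Z).T v w u).1
      + (F.bilH (k + 1) k Q.h Q.c (triv M _) k (fun _ => mA.bilinearComp (.id ℝ _) (pj _ a)) u v.1
      - F.bilH (k + 1) k Q.h Q.c (triv M _) k (fun _ => mO.bilinearComp (.id ℝ _) (pj _ a)) u w.1
      - F.mulH k Q.h (triv M _) (Q.ad a) (F.incl (k + 1) k Q.h u)) := H.ext fun x => by
  rw [← (val_DH H.hS H.k4 u).2 a]
  simp only [val_add, val_sub, Pi.add_apply, Pi.sub_apply]
  rw [val_mulH H.hS H.k4 (Cb_const _) (Maps.triv _), val_mulH H.hS H.k4 (H.cad a) (Maps.triv _),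
    val_bilH H.hS H.lev H.k4 (Cb_const _) (Maps₂.triv _),
    val_bilH H.hS H.lev H.k4 (Cb_const _) (Maps₂.triv _), val_incl H.hS H.k4 k.le_succ, pj_apply,
    H.val_T1]
  simp only [nab, D_def, ContinuousLinearMap.bilinearComp_apply, ContinuousLinearMap.id_apply,
    pj_apply, mO_apply]
  abel

/-- the elliptic estimate for `T` -/
theorem est_lev (v w : Q.C F k Z) (j : ℕ) (hj : j ≤ k + 1) : ∃ c, 0 ≤ c ∧ ∀ u : Q.R F k,
    ‖F.incl (k + 1) j Q.h u‖ ≤ c * (‖((H.ga Z).T v w u).1‖ + ‖F.incl (k + 1) 0 Q.h u‖) := by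
  induction j with
  | zero => exact ⟨1, zero_le_one, fun u => by simp⟩
  | succ j ih =>
    obtain ⟨c, c0, hc⟩ := ih (by omega)
    have hj' : j ≤ k := by omega
    let P : ι → Q.Bf F k →L[ℝ] F.H j (triv M (HS κ)) := fun a =>
      F.incl k j _ ∘L F.mulH k (Q.b F) (triv M _) fun _ => pj _ a
    let Y : ι → F.H j Q.h →L[ℝ] F.H j (triv M (HS κ)) := fun a =>
      (F.bilH j k Q.h Q.c (triv M _) j fun _ => mA.bilinearComp (.id ℝ _) (pj _ a)).flip v.1
      - (F.bilH j k Q.h Q.c (triv M _) j fun _ => mO.bilinearComp (.id ℝ _) (pj _ a)).flip w.1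
      - F.mulH j Q.h (triv M _) (Q.ad a)
    have e : ∀ u a, DH F.toPre j Q.h a (F.incl (k + 1) (j + 1) Q.h u) =
        P a ((H.ga Z).T v w u).1 + Y a (F.incl (k + 1) j Q.h u) := fun u a => by
      rw [← incl_DH hj', H.DH_eq v w, map_add, map_sub, map_sub,
        incl_bilH H.hS H.lev (Lev.right H.hk hj') (by omega) le_rfl hj' (Cb_const _) (Maps₂.triv _),
        incl_bilH H.hS H.lev (Lev.right H.hk hj') (by omega) le_rfl hj' (Cb_const _) (Maps₂.triv _),
        incl_mulH (H.cad a) (Maps.triv _) hj', incl_incl k.le_succ hj', incl_self, incl_self]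
      rfl
    refine ⟨1 + ∑ a, (‖P a‖ + ‖Y a‖ * c), by positivity, fun u => ?_⟩
    set t := ‖((H.ga Z).T v w u).1‖
    set s := ‖F.incl (k + 1) 0 Q.h u‖
    have t0 : 0 ≤ t := norm_nonneg _
    have s0 : 0 ≤ s := norm_nonneg _
    have h1 : ∀ a, ‖DH F.toPre j Q.h a (F.incl (k + 1) (j + 1) Q.h u)‖ ≤
        (‖P a‖ + ‖Y a‖ * c) * (t + s) := fun a => by
      rw [e, add_mul, mul_assoc]
      refine (norm_add_le _ _).trans (add_le_add ((P a).le_opNorm_of_le (by linarith))
        ((Y a).le_opNorm_of_le (hc u)))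
    have h2 := norm_succ_sq (F.incl (k + 1) (j + 1) Q.h u)
    rw [incl_incl hj (Nat.zero_le _)] at h2
    have h3 := Finset.sum_sq_le_sq_sum_of_nonneg (s := Finset.univ)
      fun a _ => norm_nonneg (DH F.toPre j Q.h a (F.incl (k + 1) (j + 1) Q.h u))
    have h4 := Finset.sum_le_sum fun a (_ : a ∈ Finset.univ) => h1 a
    have h5 := Finset.sum_nonneg (s := Finset.univ)
      fun a _ => norm_nonneg (DH F.toPre j Q.h a (F.incl (k + 1) (j + 1) Q.h u))
    rw [← Finset.sum_mul] at h4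
    refine (abs_le_of_sq_le_sq' (b := s + ∑ a, ‖DH F.toPre j Q.h a
      (F.incl (k + 1) (j + 1) Q.h u)‖) (by nlinarith) (by positivity)).2.trans ?_
    linarith

theorem sm_mix {v w : Q.C F k Z} (hv : Sm I (F.val _ _ v.1)) (hw : Sm I (F.val _ _ w.1)) (a : ι) :
    Sm I fun x => mix (Q.conn F k v a x) (Q.conn F k w a x) := by
  simp only [conn, mix_add]
  exact (cb_sm (H.cad a)).add (((mA ∘L pj _ a).contMDiff.comp hw).sub
    ((mO ∘L pj _ a).contMDiff.comp hv))

/-- **The estimate that gives properness.** -/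
theorem est (hy : Nk89.Hdy F) {v w : Q.C F k Z} (hv : Sm I (F.val _ _ v.1))
    (hw : Sm I (F.val _ _ w.1)) :
    ∃ K : Q.R F k →L[ℝ] F.H 0 Q.h, (H.ga Z).Est v w K := by
  obtain ⟨X, χ, c, B, R, h, hc⟩ := hy
  have hχ : F.Cb χ := Cb_of_hcs h.sχ hc
  refine ⟨(smulH F.toPre 0 Q.h χ).comp (F.incl (k + 1) 0 Q.h),
    Cht98.rellich_smul h.sχ hc k.succ_pos, ⟨‖(hsL : CL (En κ) (HS κ))‖ * 2 * F.nrm 0 χ, fun g => ?_⟩,
    ?_⟩
  · have h1 := (((Is.val H.hS H.k5 g.v).incl (Nat.zero_le _)).smulH hχ).norm_zero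
    rw [incl_self] at h1
    rw [ContinuousLinearMap.comp_apply, h1]
    refine nrm_le_of_sq (mul_nonneg (by positivity) (nrm_nonneg _ _)) ?_
    rw [mul_pow, nrm_sq]
    refine (integral_mono_of_nonneg (Eventually.of_forall fun x => by positivity)
      ((int_sq (FL_of_hcs (F := F.toPre) 0 h.sχ hc)).const_mul _)
      (Eventually.of_forall fun x => ?_)).trans_eq (integral_const_mul _ _)
    simp only [norm_smul, ← mul_pow]
    refine pow_le_pow_left₀ (by positivity) ?_ 2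
    rw [mul_comm]
    exact mul_le_mul_of_nonneg_right (H.norm_gv g x) (norm_nonneg _)
  · obtain ⟨c1, c0, h1⟩ := H.est_lev v w (k + 1) le_rfl
    let P : ι → Q.Bf F k →L[ℝ] F.H 0 (triv M (HS κ)) := fun a =>
      F.incl k 0 _ ∘L F.mulH k (Q.b F) (triv M _) fun _ => pj _ a
    have h2 := h.low hχ (H.sm_mix hv hw) (fun a x => mix_skw (H.conn_skw v a x) (H.conn_skw w a x))
      (ContinuousLinearMap.fst ℝ _ _ ∘L (H.ga Z).T v w) (D := √(∑ a, ‖P a‖ ^ 2))
      (Real.sqrt_nonneg _) fun u => by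
        rw [mul_pow, Real.sq_sqrt (by positivity), Finset.sum_mul]
        refine Finset.sum_le_sum fun a _ => ?_
        have e := (Is.val H.hS H.k4 (F.mulH k (Q.b F) (triv M _) (fun _ => pj _ a)
          ((H.ga Z).T v w (F.toH _ _ u)).1)).norm_zero
        rw [funext (val_mulH H.hS H.k4 (Cb_const _) (Maps.triv _) _)] at e
        simp only [pj_apply, H.val_T1', val_toH H.hS H.k5] at e
        rw [← nrm_sq, ← e, ← mul_pow]
        exact pow_le_pow_left₀ (norm_nonneg _) ((P a).le_opNorm _) 2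
    set D := √(∑ a, ‖P a‖ ^ 2)
    set G := √(Nk89.cH (Fintype.card ι) c B R)
    have D0 : 0 ≤ D := Real.sqrt_nonneg _
    have G0 : 0 ≤ G := Real.sqrt_nonneg _
    refine ⟨c1 * (1 + G * (D + 1)), fun u => ?_⟩
    have h3 := h1 u
    have h4 : ‖F.incl (k + 1) 0 Q.h u‖ ≤ G * (D * ‖((H.ga Z).T v w u).1‖ + _) := h2 u
    have h5 := norm_fst_le ((H.ga Z).T v w u)
    rw [incl_self] at h3
    rw [mul_assoc, ContinuousLinearMap.comp_apply]
    refine h3.trans (mul_le_mul_of_nonneg_left ?_ c0)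
    have a1 := norm_nonneg ((H.ga Z).T v w u)
    have a2 := norm_nonneg (smulH F.toPre 0 Q.h χ (F.incl (k + 1) 0 Q.h u))
    nlinarith [mul_nonneg G0 a1, mul_nonneg (mul_nonneg G0 D0) a2,
      mul_le_mul_of_nonneg_left h5 (mul_nonneg G0 D0)]

theorem propAt (hy : Nk89.Hdy F) {v w : Q.C F k Z} (hv : Sm I (F.val _ _ v.1))
    (hw : Sm I (F.val _ _ w.1)) : PropAt (H.ga Z).Gr v w :=
  let ⟨_, h⟩ := H.est hy hv hw
  h.propAt

theorem propAt_gx {J : En κ} (hJ : Q.CJ J) (r : CR Z) (hy : Nk89.Hdy F) {v w : Q.C F k Z}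
    (hv : Sm I (F.val _ _ v.1)) (hw : Sm I (F.val _ _ w.1)) : PropAt (H.gx hJ r).Gx v w :=
  GX.propAt fun _ => H.propAt hy hv hw

theorem D_gv (g : (H.ga Z).Gr) (v : Q.C F k Z) (a : ι) (x : M) : F.D a (H.gv g) x =
    (-mix (Q.conn F k v a x) (Q.conn F k (g • v) a x)) (H.gv g x) +
      (F.val _ _ v.1 x a - F.val _ _ (g • v).1 x a) := by
  have h := H.par_smul g v x a
  have e : Q.conn F k (g • v) a x - Q.conn F k v a x =
    opL (F.val _ _ (g • v).1 x a) - opL (F.val _ _ v.1 x a) := by simp only [conn]; abel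
  refine opL_inj ?_
  simp only [map_add, map_sub, _root_.neg_apply, map_neg, opL_mix]
  linear_combination (norm := noncomm_ring) h - e

/-- a gauge transformation between smooth points is smooth -/
theorem sm_gv {g : (H.ga Z).Gr} {v : Q.C F k Z} (hv : Sm I (F.val _ _ v.1))
    (hw : Sm I (F.val _ _ (g • v).1)) : Sm I (H.gv g) :=
  sm_of_lin (H.md_gv g) (fun a => (H.sm_mix hv hw a).neg)
    (fun a => ((pj _ a).contMDiff.comp hv).sub ((pj _ a).contMDiff.comp hw)) (H.D_gv g v)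

theorem nice_gv {C : ℕ → ℝ} (hF : F.Tame C) {g : (H.ga Z).Gr} {v : Q.C F k Z}
    (hv : Nice F.toPre (F.val _ _ v.1)) (hw : Nice F.toPre (F.val _ _ (g • v).1)) :
    Nice F.toPre (H.gv g) := by
  have hs := H.sm_gv hv.sm hw.sm
  refine nice_of_fl hF hs (fl_of_lin hs (Is.val H.hS H.k5 g.v).memLp (fun a => ?_)
    (fun a => (hv.clm (pj _ a)).sub (hw.clm (pj _ a))) (H.D_gv g v))
  simp only [conn, mix_add]
  exact Cb_neg (Cb_add (H.cad a) (Cb_sub (Cb_clm (mA ∘L pj _ a) hw.1) (Cb_clm (mO ∘L pj _ a) hv.1)))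

theorem nice_smul1 {g : (H.ga Z).Gr} {v : Q.C F k Z} (hg : Nice F.toPre (H.gv g))
    (hv : Nice F.toPre (F.val _ _ v.1)) : Nice F.toPre (F.val _ _ (g • v).1) := Nice.fm fun a => by
  have h1 := hv.clm (pj _ a)
  have h2 := (h1.add (h1.bil mA hg.1)).sub ((hg.D a).add (hg.app (H.cad a)))
  simp only [H.val_smul1]
  exact h2.add (h2.bil' mA (Cb_clm tA hg.1))

theorem nice_smul2 {g : (H.ga Z).Gr} {v : Q.C F k Z} (hg : Nice F.toPre (H.gv g))
    (hv : Nice F.toPre (F.val _ _ v.2.1)) : Nice F.toPre (F.val _ _ (g • v).2.1) := by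
  rw [funext (H.val_smul2 g v)]
  exact hv.add (hg.bil' opL (Cb_add H.cΦ hv.1))

end Hyp
end QB

end Crest.Agent.X212.Grp76
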