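import Crest.Agent.X212.Grp76.Act
import Crest.Agent.X212.Mod61.Fmt
import Crest.Agent.X212.Std94.Smo

/-! The gauge algebra of a spin^u module. -/

set_option autoImplicit false
set_option linter.unusedSectionVars false
noncomputable section
open scoped Manifold ContDiff Topology InnerProductSpace Quaternion
open MeasureTheory Set Function Filter

namespace Crest.Agent.X212.Grp76
open An An.Pre Sob92 Wz78 Std94 Mod61

variable {E : Type} [NormedAddCommGroup E] [NormedSpace ℝ E] [FiniteDimensional ℝ E]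
  [MeasurableSpace E] [BorelSpace E]
  {HM : Type} [TopologicalSpace HM] {I : ModelWithCorners ℝ E HM} [I.Boundaryless]
  {M : Type} [TopologicalSpace M] [ChartedSpace HM M] [IsManifold I ∞ M]
  [MeasurableSpace M] [T2Space M] [BorelSpace M] [SecondCountableTopology M]
  {ι : Type} [Fintype ι] {lam : Type} [Fintype lam]
  {T : Type} [NormedAddCommGroup T] [NormedSpace ℝ T]

section ind
variable {N : Type} [NormedAddCommGroup N] [NormedSpace ℝ N] {f : M → N} {O : Set M} {x : M}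

theorem ind_ev (hO : IsOpen O) (hx : x ∈ O) (f : M → N) : O.indicator f =ᶠ[𝓝 x] f :=
  mem_of_superset (hO.mem_nhds hx) fun _ hy => indicator_of_mem hy f

theorem ind_ev0 (hO : IsClosed O) (hx : x ∉ O) (f : M → N) : O.indicator f =ᶠ[𝓝 x] 0 :=
  mem_of_superset (hO.isOpen_compl.mem_nhds hx) fun _ hy => indicator_of_notMem hy f

theorem sm_ind (hO : IsClopen O) (hf : ∀ x ∈ O, SA I f x) : Sm I (O.indicator f) := fun x => by
  by_cases hx : x ∈ O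
  · exact (hf x hx).congr_of_eventuallyEq (ind_ev hO.2 hx f)
  · exact contMDiffAt_const.congr_of_eventuallyEq (ind_ev0 hO.1 hx f)

theorem Cb_ind {F : Pre I M ι} (hO : IsClopen O) (hf : F.Cb f) : F.Cb (O.indicator f) := by
  obtain ⟨C, h1, h2⟩ := hf
  have e : ∀ a (f : M → N), F.D a (O.indicator f) = O.indicator (F.D a f) := fun a f =>
    funext fun x => by
      by_cases hx : x ∈ O
      · rw [indicator_of_mem hx]; exact dv_congr (ind_ev hO.2 hx f)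
      · rw [indicator_of_notMem hx, D_def, dv_congr (ind_ev0 hO.1 hx f), dv_zero]; rfl
  have : ∀ (w : List ι) (f : M → N), F.Dw w (O.indicator f) = O.indicator (F.Dw w f) := fun w => by
    induction w with
    | nil => exact fun _ => rfl
    | cons a w ih => exact fun f => by rw [Pre.Dw, e, ih, Pre.Dw]
  refine ⟨C, sm_ind hO fun x _ => h1 x, fun k w hw x => ?_⟩
  rw [this]
  exact (norm_indicator_le_norm_self _ _).trans (h2 k w hw x)

theorem ind_iff (p : M → N →L[ℝ] N) (v : N) :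
    O.indicator p x v = v ↔ p x v = v ∧ (x ∉ O → v = 0) := by
  by_cases hx : x ∈ O
  · simp [hx]
  · rw [indicator_of_notMem hx]
    refine ⟨fun h => ?_, fun h => by simp [h.2 hx]⟩
    obtain rfl : v = 0 := h.symm
    simp

theorem ind_idem {p : M → N →L[ℝ] N} (hp : ∀ v, p x (p x v) = p x v) (v : N) :
    O.indicator p x (O.indicator p x v) = O.indicator p x v := by
  by_cases hx : x ∈ O <;> simp [hx, hp]

end ind

theorem idx_iff {α V : Type} [Fintype α] [NormedAddCommGroup V] [InnerProductSpace ℝ V]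
    {S : α → α → ℝ} {T : V →L[ℝ] V} (hT : ∀ v, T (T v) = T v) (η : Fm α V) :
    idx S T η = η ↔ (∀ a, T (η a) = η a) ∧ ∀ a, ∑ c, S a c • η c = η a := by
  have e : idx S T η = η → ∀ a, T (η a) = η a := fun h a => by
    rw [← h, idx_apply, map_sum]
    simp only [map_smul, hT]
  refine ⟨fun h => ⟨e h, fun a => ?_⟩, fun h => ?_⟩
  · conv_rhs => rw [← h, idx_apply]
    simp only [e h]
  · ext1 a
    simp only [idx_apply, h.1, h.2]

theorem idx_idem {α V : Type} [Fintype α] [NormedAddCommGroup V] [InnerProductSpace ℝ V]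
    {S : α → α → ℝ} {T : V →L[ℝ] V} (hS : ∀ a b, ∑ c, S a c * S c b = S a b)
    (hT : ∀ v, T (T v) = T v) (η : Fm α V) : idx S T (idx S T η) = idx S T η := by
  rw [idx_idx]
  ext1 a
  simp only [idx_apply, hS, mul_apply_eq_comp, hT]

theorem Cb_rk {V : Type} [NormedAddCommGroup V] [InnerProductSpace ℝ V] {F : Pre I M ι}
    {f : M → V} (hf : F.Cb f) : F.Cb fun x => (innerSL ℝ (f x)).smulRight (f x) :=
  Cb_bil (ContinuousLinearMap.smulRightL ℝ V V) (Cb_clm (innerSL ℝ) hf) hf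

section md
variable {B : Base M ι lam} {m : Md M ι lam} {x : M}

variable (m) in
/-- the projector onto `ℝ p ⊕ g` -/
def ph (x : M) : CL m.A m.A := m.pg x + (1 / 16 : ℝ) • rk1 (hsL (m.p x)) (hsL (m.p x))

theorem ph_apply (ξ : m.A) :
    ph m x ξ = m.pg x ξ + ((1 / 16 : ℝ) * ⟪hsL (m.p x), ξ⟫_ℝ) • hsL (m.p x) := by
  rw [ph, _root_.add_apply, _root_.smul_apply, rk1_apply, smul_smul]

variable (hB : B.OK I) (H : m.OK I B)
include hB H

theorem itx_ph (ξ : m.A) : Itx m m x (opL (ph m x ξ)) :=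
  (itx_iff hB (pmx H x) _).2 ⟨_, _, pg_mem x ξ, by
    rw [ph_apply, map_add, map_smul, opL_hsL, add_comm]⟩

theorem ph_iff (ξ : m.A) : ph m x ξ = ξ ↔ Itx m m x (opL ξ) := by
  refine ⟨fun h => h ▸ itx_ph hB H ξ, fun h => ?_⟩
  · obtain ⟨U, s, u, h'⟩ := exists_fx hB (pmx H x)
    obtain ⟨c, hc⟩ := (h'.itx_iff h' _).1 h
    rw [← hsL_opL ξ, hc, ph_apply, h'.pg_Xi, ← h'.Xi_one, Fx.inner_g, ← map_smul, ← map_smul,
      ← map_add, ← map_add]
    congr 2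
    ext <;> simp [inner_q]

theorem ph_ph (ξ : m.A) : ph m x (ph m x ξ) = ph m x ξ :=
  (ph_iff hB H _).2 (itx_ph hB H ξ)

theorem pg_iff (ξ : m.A) : m.pg x ξ = ξ ↔ ph m x ξ = ξ ∧ tA ξ = -ξ := by
  obtain ⟨U, s, u, h'⟩ := exists_fx hB (pmx H x)
  rw [ph_iff hB H, ← skw_iff]
  refine ⟨fun h => ?_, fun h => pg_of_mem (hsL_opL ξ ▸ Fx.mem_of_itx h.1 h.2)⟩
  have := h ▸ pg_mem x ξ
  exact ⟨h'.itx_of_mem this, this.1⟩

theorem itx_mul {S U : En (Fin m.N)} (h : Itx m m x S) (h' : Itx m m x U) : Itx m m x (S * U) :=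
  ⟨fun y => h.pl _, fun y => congrArg S (h'.pr y), fun a y => (congrArg S (h'.ρ a y)).trans (h.ρ a _),
    fun y => (congrArg S (h'.J y)).trans (h.J _), fun s y => (congrArg S (h'.j s y)).trans (h.j s _)⟩

theorem itx_trn {S : En (Fin m.N)} (h : Itx m m x S) : Itx m m x (trn S) := by
  obtain ⟨U, s, u, h'⟩ := exists_fx hB (pmx H x)
  obtain ⟨c, rfl⟩ := (h'.itx_iff h' _).1 h
  exact (h'.itx_iff h' _).2 ⟨_, trn_Xi _ _ _⟩

omit hB H in
theorem itx_of {S : En (Fin m.N)} (h1 : m.p x * S = S) (h2 : S * m.p x = S)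
    (h3 : ∀ a, S * m.ρ a x = m.ρ a x * S) (h4 : S * m.J = m.J * S)
    (h5 : ∀ s, S * m.j x s = m.j x s * S) : Itx m m x S :=
  have ap : ∀ {S T : En (Fin m.N)}, S = T → ∀ v, S v = T v := fun e v => by rw [e]
  ⟨ap h1, ap h2, fun a => ap (h3 a), ap h4, fun s => ap (h5 s)⟩

omit hB H in
theorem itx_eq {S : En (Fin m.N)} (h : Itx m m x S) : m.p x * S = S ∧ S * m.p x = S ∧
    (∀ a, S * m.ρ a x = m.ρ a x * S) ∧ S * m.J = m.J * S ∧ ∀ s, S * m.j x s = m.j x s * S :=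
  ⟨ContinuousLinearMap.ext h.pl, ContinuousLinearMap.ext h.pr,
    fun a => ContinuousLinearMap.ext (h.ρ a), ContinuousLinearMap.ext h.J,
    fun s => ContinuousLinearMap.ext (h.j s)⟩

omit hB in
/-- the commutant is parallel -/
theorem itx_nab {G : Geo I M ι lam} {W : m.Cn} (hW : m.IsConn B G W) {U : M → En (Fin m.N)}
    (hU : MDifferentiable I 𝓘(ℝ, En (Fin m.N)) U) (h : ∀ y, Itx m m y (U y)) (a : ι) (x : M) :
    Itx m m x (nabE I G.F.e W a U x) := by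
  have mul : ∀ {S R : M → En (Fin m.N)}, MDifferentiableAt I 𝓘(ℝ, En (Fin m.N)) S x →
      MDifferentiableAt I 𝓘(ℝ, En (Fin m.N)) R x → nabE I G.F.e W a (fun y => S y * R y) x =
        nabE I G.F.e W a S x * R x + S x * nabE I G.F.e W a R x := fun hS hR => by
    simp only [nabE]
    rw [show (fun y => _ * _) = fun y => ContinuousLinearMap.mul ℝ (En (Fin m.N)) _ _ from rfl,
      dv_bil _ hS hR]
    simp only [ContinuousLinearMap.mul_apply']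
    noncomm_ring
  have cm : ∀ {S : M → En (Fin m.N)}, MDifferentiableAt I 𝓘(ℝ, En (Fin m.N)) S x →
      (∀ y, U y * S y = S y * U y) → U x * nabE I G.F.e W a S x = nabE I G.F.e W a S x * U x →
      nabE I G.F.e W a U x * S x = S x * nabE I G.F.e W a U x := fun hS h1 h2 => by
    have h3 := mul (hU x) hS
    rw [funext h1, mul hS (hU x), h2, add_comm] at h3
    exact (add_right_cancel h3).symm
  have hp : nabE I G.F.e W a m.p x = 0 := hW.cc.par a x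
  have sp := (hW.cc.sp x).md
  refine itx_of ?_ ?_ (fun b => cm (hW.cc.sρ b x).md (fun y => (itx_eq (h y)).2.2.1 b) ?_)
    (cm mdifferentiableAt_const (fun y => (itx_eq (h y)).2.2.2.1) ?_)
    fun s => cm (S := fun y => m.j y s) (((H.sj x).clm_apply contMDiffAt_const).mdifferentiableAt
      (by simp)) (fun y => (itx_eq (h y)).2.2.2.2 s) ?_
  · have := mul sp (hU x)
    rw [funext fun y => (itx_eq (h y)).1, hp, zero_mul, zero_add] at this
    exact this.symm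
  · have := mul (hU x) sp
    rw [funext fun y => (itx_eq (h y)).2.1, hp, mul_zero, add_zero] at this
    exact this.symm
  · rw [nabE, hW.cc.comp, Finset.mul_sum, Finset.sum_mul]
    simp only [mul_smul_comm, smul_mul_assoc, (itx_eq (h x)).2.2.1]
  · simp [nabE, hW.J]
  · have e : dv I (G.F.e a) (fun y => m.j y s) x = G.F.D a m.j x s :=
      dv_clm (ContinuousLinearMap.apply ℝ (En (Fin m.N)) s) ((H.sj x).mdifferentiableAt (by simp))
    rw [nabE, e, hW.j, (itx_eq (h x)).2.2.2.2]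

end md

section ref
variable {𝔉 : Fam I M ι lam T} (o : Ref 𝔉)

/-- the quaternion bundle cut to `Om` -/
def Ph : M → CL o.m.A o.m.A := 𝔉.Om.indicator (ph o.m)

/-- the gauge data of a module, for the spinor bundle `s` and the base spinor `Φ` -/
abbrev qb' (s : M → CL o.m.V o.m.V) (Φ : M → o.m.V) : QB M ι (Fin o.m.N) :=
  ⟨Ph o, o.Pg, o.P1, s, o.A0, Φ⟩

/-- the gauge data of a module -/
abbrev qb : QB M ι (Fin o.m.N) := qb' o o.Pp o.Φ0

variable {o} (h𝔉 : 𝔉.OK)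
include h𝔉

theorem cP (a b : ι) : 𝔉.F0.Cb (𝔉.F0.P a b) := ⟨_, h𝔉.tame.choose_spec.P a b⟩

theorem dat : Kl.Dat (cbK 𝔉.F0.toPre) 𝔉.B o.m id :=
  ⟨fun a b => h𝔉.P0 ▸ cP h𝔉 a b, h𝔉.co, o.cp, o.cρ, o.cj⟩

theorem Ph_iff (x : M) (ξ : o.m.A) :
    Ph o x ξ = ξ ↔ Itx o.m o.m x (opL ξ) ∧ (x ∉ 𝔉.Om → ξ = 0) := by
  rw [Ph, ind_iff, ph_iff h𝔉.B o.ok]

theorem Pg_iff (x : M) (ξ : o.m.A) : o.Pg x ξ = ξ ↔ ξ ∈ o.m.gS x ∧ (x ∉ 𝔉.Om → ξ = 0) := by
  rw [Ref.Pg, ind_iff]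
  exact and_congr_left' ⟨fun h => h ▸ pg_mem x ξ, pg_of_mem⟩

theorem Pg_Pg (x : M) (ξ : o.m.A) : o.Pg x (o.Pg x ξ) = o.Pg x ξ := ind_idem (Wz78.pg_pg x) ξ

theorem cPg : 𝔉.F0.Cb o.Pg := Cb_ind h𝔉.Om ((dat h𝔉).pg h𝔉.B fun x => pmx o.ok x)

theorem cP2 : 𝔉.F0.Cb o.P2 := Kl.idx (K := cbK 𝔉.F0.toPre) (dat (o := o) h𝔉).sd (cPg h𝔉)

theorem P2_P2 (x : M) (η : Fm (ι × ι) o.m.A) : o.P2 x (o.P2 x η) = o.P2 x η :=
  idx_idem (sd_sd h𝔉.B x) (Pg_Pg h𝔉 x) η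

theorem ok' {s : M → CL o.m.V o.m.V} {Φ : M → o.m.V} (cΦ : 𝔉.F0.Cb Φ) (hΦ : ∀ x, s x (Φ x) = Φ x)
    (hs : ∀ x S v, Itx o.m o.m x S → s x v = v → s x (S v) = S v) : (qb' o s Φ).OK 𝔉.F0 where
  cP := cP h𝔉
  ch := Cb_ind h𝔉.Om (Cb_add ((dat h𝔉).pg h𝔉.B fun x => pmx o.ok x)
    (Cb_smul (Cb_const _) (Cb_rk (Cb_clm hsL o.cp))))
  cg := cPg h𝔉
  cc := Kl.idx (K := cbK 𝔉.F0.toPre) (dat (o := o) h𝔉).P (cPg h𝔉)
  cW := o.cA
  cΦ := cΦ
  hh x := ind_idem (ph_ph h𝔉.B o.ok)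
  gg := Pg_Pg h𝔉
  cc' x := idx_idem (h𝔉.B.pr x).idem (Pg_Pg h𝔉 x)
  mul x ξ η h1 h2 := by
    rw [Ph_iff h𝔉] at h1 h2 ⊢
    exact ⟨opL_mA ξ η ▸ itx_mul h𝔉.B o.ok h1.1 h2.1, fun hx => by rw [h2.2 hx, map_zero]⟩
  tr x ξ h := by
    rw [Ph_iff h𝔉] at h ⊢
    exact ⟨opL_tA ξ ▸ itx_trn h𝔉.B o.ok h.1, fun hx => by rw [h.2 hx, map_zero]⟩
  nrm x ξ h := opL_inj (by
    have := itx_norm h𝔉.B (pmx o.ok x) (pmx o.ok x) ((Ph_iff h𝔉 x ξ).1 h).1
    rw [opL_mA, opL_mA, opL_tA]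
    exact this.2.trans this.1.symm)
  g_iff x ξ := by
    simp only [Ref.Pg, Ph]
    rw [ind_iff, ind_iff, pg_iff h𝔉.B o.ok, and_right_comm]
  c_iff x η := by
    rw [h𝔉.P0]
    exact idx_iff (Pg_Pg h𝔉 x) η
  par u hu h a x := by
    rw [Ph_iff h𝔉]
    refine ⟨?_, fun hx => ?_⟩
    · have h1 := itx_nab o.ok o.conn (U := fun y => opL (u y))
        (fun y => opL.mdifferentiableAt.comp y (hu y)) (fun y => ((Ph_iff h𝔉 y _).1 (h y)).1) a x
      rw [nabE, dv_clm opL (hu x), h𝔉.e0] at h1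
      rwa [nab, map_add, QB.ad, opL_adc]
    · have e : u =ᶠ[𝓝 x] 0 := mem_of_superset (h𝔉.Om.1.isOpen_compl.mem_nhds hx)
        fun y hy => ((Ph_iff h𝔉 y _).1 (h y)).2 hy
      rw [nab_congr a e, nab, dv_zero]
      simp
  sk := o.conn.sk
  WP := h𝔉.P0 ▸ o.conn.cc.proj
  act x ξ v h := hs x _ v ((Ph_iff h𝔉 x ξ).1 h).1
  sΦ := hΦ

omit h𝔉 in
theorem Pp_comm {x : M} {S : En (Fin o.m.N)} (h1 : S * o.m.p x = o.m.p x * S)
    (h2 : ∀ a, S * o.m.ρ a x = o.m.ρ a x * S) {v : o.m.V} (h : o.Pp x v = v) :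
    o.Pp x (S v) = S v := by
  rw [Ref.Pp, ind_iff] at h ⊢
  exact ⟨by rw [← mul_apply_eq_comp, ← pp_comm h1 h2, mul_apply_eq_comp, h.1],
    fun hx => by rw [h.2 hx, map_zero]⟩

omit h𝔉 in
theorem Pm_comm {x : M} {S : En (Fin o.m.N)} (h1 : S * o.m.p x = o.m.p x * S)
    (h2 : ∀ a, S * o.m.ρ a x = o.m.ρ a x * S) {v : o.m.V} (h : o.Pm x v = v) :
    o.Pm x (S v) = S v := by
  rw [Ref.Pm, ind_iff] at h ⊢
  exact ⟨by rw [← mul_apply_eq_comp, ← pm_comm h1 h2, mul_apply_eq_comp, h.1],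
    fun hx => by rw [h.2 hx, map_zero]⟩

variable (o) in
theorem hyp {k : ℕ} (hk : 7 ≤ k) : (qb o).Hyp 𝔉.F0 k :=
  ⟨ok' h𝔉 o.cΦ o.pos fun _ _ _ h => Pp_comm ((itx_eq h).2.1.trans (itx_eq h).1.symm) (itx_eq h).2.2.1,
    ⟨_, Sup.of_tame h𝔉.tame.choose_spec⟩, hk⟩

variable (o) in
theorem hypM {k : ℕ} (hk : 7 ≤ k) : (qb' o o.Pm 0).Hyp 𝔉.F0 k :=
  ⟨ok' h𝔉 (Cb_const 0) (fun _ => map_zero _) fun _ _ _ h =>
    Pm_comm ((itx_eq h).2.1.trans (itx_eq h).1.symm) (itx_eq h).2.2.1,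
    ⟨_, Sup.of_tame h𝔉.tame.choose_spec⟩, hk⟩

theorem cJ (h0 : o.Φ0 = 0) : (qb o).CJ o.m.J :=
  ⟨o.ok.Jsq, fun x _ => Pp_comm (o.ok.Jp x) fun a => o.ok.Jρ a x,
    fun x ξ h => (itx_eq ((Ph_iff h𝔉 x ξ).1 h).1).2.2.2.1.symm, h0⟩

theorem cJM : (qb' o o.Pm 0).CJ o.m.J :=
  ⟨o.ok.Jsq, fun x _ => Pm_comm (o.ok.Jp x) fun a => o.ok.Jρ a x,
    fun x ξ h => (itx_eq ((Ph_iff h𝔉 x ξ).1 h).1).2.2.2.1.symm, rfl⟩

theorem p_Pp {x : M} {v : o.m.V} (h : o.Pp x v = v) : o.m.p x v = v := by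
  have h1 := ((ind_iff _ _).1 h).1
  rw [← h1, ← mul_apply_eq_comp, p_pp h𝔉.B (pmx o.ok x)]

theorem p_Pm {x : M} {v : o.m.V} (h : o.Pm x v = v) : o.m.p x v = v := by
  have h1 := ((ind_iff _ _).1 h).1
  rw [← h1, ← mul_apply_eq_comp, p_pm h𝔉.B (pmx o.ok x)]

end ref

end Crest.Agent.X212.Grp76
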