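import Crest.Agent.X212.Grp76.Core
import Crest.Agent.X212.Slc61.Slice

/-! Chart of the gauge group, infinitesimal action, properness from one estimate. -/

set_option autoImplicit false

noncomputable section

open Set Filter Topology
open scoped ContDiff

namespace Crest.Agent.X212.Grp76

/-- Abstract compactness: approximate solutions of a linear equation with an estimate modulo a
compact operator. -/
theorem exists_subseq_of_est {R Y Z : Type*} [NormedAddCommGroup R] [NormedSpace ℝ R]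
    [CompleteSpace R] [NormedAddCommGroup Y] [NormedSpace ℝ Y] [NormedAddCommGroup Z]
    [NormedSpace ℝ Z] {T : R →L[ℝ] Y} {K : R →L[ℝ] Z} (hK : IsCompactOperator K) {c : ℝ}
    (hest : ∀ u, ‖u‖ ≤ c * (‖T u‖ + ‖K u‖)) {Tn : ℕ → R →L[ℝ] Y} (hT : Tendsto Tn atTop (𝓝 T))
    {u : ℕ → R} {y : Y} (hy : Tendsto (fun n => Tn n (u n)) atTop (𝓝 y)) {M : ℝ}
    (hM : ∀ n, ‖K (u n)‖ ≤ M) :
    ∃ (φ : ℕ → ℕ) (w : R), StrictMono φ ∧ Tendsto (u ∘ φ) atTop (𝓝 w) := by
  have hest' : ∀ u, ‖u‖ ≤ (|c| + 1) * (‖T u‖ + ‖K u‖) := fun u =>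
    (hest u).trans (mul_le_mul_of_nonneg_right ((le_abs_self c).trans (by linarith))
      (by positivity))
  set c' := |c| + 1 with hc'
  have hc0 : 0 < c' := by positivity
  have h0 : Tendsto (fun n => ‖T - Tn n‖) atTop (𝓝 0) := by
    simpa using (tendsto_const_nhds (x := T)).sub hT |>.norm
  have hle : ∀ n, ‖T (u n) - Tn n (u n)‖ ≤ ‖T - Tn n‖ * ‖u n‖ := fun n => (T - Tn n).le_opNorm _
  have hb : ∀ᶠ n in atTop, ‖u n‖ ≤ 2 * c' * (‖y‖ + 1 + M) := by
    filter_upwards [h0.eventually (gt_mem_nhds (show (0 : ℝ) < 1 / (2 * c') by positivity)),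
      hy.norm.eventually (gt_mem_nhds (lt_add_one ‖y‖))] with n h1 h2
    have h3 : ‖T (u n)‖ ≤ ‖T - Tn n‖ * ‖u n‖ + ‖Tn n (u n)‖ :=
      (norm_le_norm_sub_add _ (Tn n (u n))).trans (by linarith [hle n])
    have h4 : c' * (‖T - Tn n‖ * ‖u n‖) ≤ ‖u n‖ / 2 := by
      have : c' * ‖T - Tn n‖ ≤ 1 / 2 := by
        rw [lt_div_iff₀ (by positivity)] at h1
        linarith
      nlinarith [norm_nonneg (u n)]
    have h5 := hest' (u n)
    have h6 : c' * (‖T (u n)‖ + ‖K (u n)‖) ≤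
        c' * (‖T - Tn n‖ * ‖u n‖) + c' * (‖y‖ + 1 + M) := by
      rw [← mul_add]
      exact mul_le_mul_of_nonneg_left (by linarith [hM n]) hc0.le
    linarith
  set ρ := 2 * c' * (‖y‖ + 1 + M)
  have hTu : Tendsto (fun n => T (u n)) atTop (𝓝 y) := by
    have h1 : Tendsto (fun n => T (u n) - Tn n (u n)) atTop (𝓝 0) := by
      refine squeeze_zero_norm' ?_ (by simpa using h0.mul_const ρ)
      filter_upwards [hb] with n hn
      exact (hle n).trans (mul_le_mul_of_nonneg_left hn (norm_nonneg _))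
    simpa using h1.add hy
  obtain ⟨Q, hQ, hQ'⟩ := hK.image_subset_compact_of_bounded (Metric.isBounded_closedBall
    (x := (0 : R)) (r := ρ))
  obtain ⟨z, -, φ, hφ, hz⟩ := hQ.tendsto_subseq' (x := fun n => K (u n))
    (hb.mono fun n hn => hQ' ⟨u n, by simpa using hn, rfl⟩).frequently
  have hc : CauchySeq (u ∘ φ) := by
    have h1 := (hTu.comp hφ.tendsto_atTop).cauchySeq
    have h2 := hz.cauchySeq
    rw [Metric.cauchySeq_iff] at h1 h2 ⊢
    intro ε hε
    obtain ⟨N1, hN1⟩ := h1 (ε / (2 * c')) (by positivity)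
    obtain ⟨N2, hN2⟩ := h2 (ε / (2 * c')) (by positivity)
    refine ⟨max N1 N2, fun a ha b hb => ?_⟩
    have e1 := hN1 a (le_of_max_le_left ha) b (le_of_max_le_left hb)
    have e2 := hN2 a (le_of_max_le_right ha) b (le_of_max_le_right hb)
    simp only [Function.comp, dist_eq_norm] at e1 e2 ⊢
    have e3 := hest' (u (φ a) - u (φ b))
    rw [map_sub, map_sub] at e3
    refine e3.trans_lt ?_
    calc _ < c' * (ε / (2 * c') + ε / (2 * c')) := mul_lt_mul_of_pos_left (by linarith) hc0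
      _ = ε := by field_simp; ring
  obtain ⟨w, hw⟩ := cauchySeq_tendsto_of_complete hc
  exact ⟨φ, w, hφ, hw⟩

variable {R B S C L : Type*} [NormedAddCommGroup R] [NormedSpace ℝ R]
  [NormedAddCommGroup B] [NormedSpace ℝ B] [NormedAddCommGroup S] [NormedSpace ℝ S]
  [NormedAddCommGroup C] [NormedSpace ℝ C] [NormedAddCommGroup L] [NormedSpace ℝ L]

/-- Properness of an action at the pair `(x, y)`, sequential form. -/
def PropAt (G : Type*) [Group G] [TopologicalSpace G] {C : Type*} [TopologicalSpace C]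
    [MulAction G C] (x y : C) : Prop :=
  ∀ (xn : ℕ → C) (g : ℕ → G), Tendsto xn atTop (𝓝 x) →
    Tendsto (fun n => g n • xn n) atTop (𝓝 y) →
    ∃ (φ : ℕ → ℕ) (k : G), StrictMono φ ∧ Tendsto (g ∘ φ) atTop (𝓝 k)

namespace GA

variable (D : GA R B S C L)

/-- The estimate that gives properness at `(x, y)`: `T x y` is bounded below modulo a compact
operator which is bounded on the gauge group. -/
def Est (x y : C) {Z : Type*} [NormedAddCommGroup Z] [NormedSpace ℝ Z] (K : R →L[ℝ] Z) : Prop :=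
  IsCompactOperator K ∧ (∃ M, ∀ g : D.Gr, ‖K g.v‖ ≤ M) ∧
    ∃ c, ∀ u, ‖u‖ ≤ c * (‖D.T x y u‖ + ‖K u‖)

theorem isClosed_nn : IsClosed {u : R | D.nn u = 0} :=
  isClosed_eq D.continuous_nn continuous_const

variable {D}

theorem Est.propAt [CompleteSpace R] {x y : C} {Z : Type*} [NormedAddCommGroup Z]
    [NormedSpace ℝ Z] {K : R →L[ℝ] Z} (h : D.Est x y K) : PropAt D.Gr x y := by
  obtain ⟨hK, ⟨M, hM⟩, c, hc⟩ := h
  intro xn g hx hy
  obtain ⟨yn, hyn⟩ : ∃ yn : ℕ → C, ∀ n, g n • xn n = yn n := ⟨_, fun _ => rfl⟩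
  simp only [hyn] at hy
  have h0 := (D.continuous_T.tendsto (x, y)).comp (hx.prodMk_nhds hy)
  have h1 : Tendsto (fun n => D.T (xn n) (yn n)) atTop (𝓝 (D.T x y)) := h0
  have h2 : Tendsto (fun n => D.T (xn n) (yn n) (g n).v) atTop
      (𝓝 (D.pa x - D.pa y, D.ps y - D.ps x)) := by
    have h3 : (fun n => D.T (xn n) (yn n) (g n).v) =
        fun n => (D.pa (xn n) - D.pa (yn n), D.ps (yn n) - D.ps (xn n)) :=
      funext fun n => (smul_eq_iff (g n) (xn n) _).1 (hyn n)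
    rw [h3]
    exact (((D.pa.continuous.tendsto x).comp hx).sub
      ((D.pa.continuous.tendsto y).comp hy)).prodMk_nhds
      (((D.ps.continuous.tendsto y).comp hy).sub ((D.ps.continuous.tendsto x).comp hx))
  obtain ⟨φ, w, hφ, hw⟩ := exists_subseq_of_est hK hc h1 h2 fun n => hM (g n)
  have hw0 : D.nn w = 0 :=
    D.isClosed_nn.mem_of_tendsto hw (Eventually.of_forall fun n => (g (φ n)).nn_v)
  exact ⟨φ, ⟨w, hw0⟩, hφ, tendsto_iff_v.2 hw⟩

variable (D)

/-- skew part plus half the defect of unitarity: a local diffeomorphism at `0`. -/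
def Ψ (u : R) : R := (1 / 2 : ℝ) • (u - D.st u) + (1 / 2 : ℝ) • D.nn u

theorem contDiff_Ψ : ContDiff ℝ ω D.Ψ := by
  have := D.contDiff_nn (n := ω)
  unfold Ψ; fun_prop

@[simp] theorem Ψ_zero : D.Ψ 0 = 0 := by simp [Ψ, nn]

theorem hasStrict_Ψ : HasStrictFDerivAt D.Ψ
    (ContinuousLinearEquiv.refl ℝ R : R →L[ℝ] R) 0 := by
  have h : D.Ψ = fun u => u + (1 / 2 : ℝ) • D.m (D.st u) u := by
    funext u
    simp only [Ψ, nn]
    module
  have h1 : HasStrictFDerivAt (fun u => D.m (D.st u) u) (0 : R →L[ℝ] R) 0 := by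
    have h2 := (D.m.hasStrictFDerivAt_of_bilinear (D.st.hasStrictFDerivAt (x := 0))
      (hasStrictFDerivAt_id (0 : R)))
    refine h2.congr_fderiv ?_
    ext v
    simp
  rw [h]
  refine ((hasStrictFDerivAt_id (0 : R)).add (h1.const_smul (1 / 2 : ℝ))).congr_fderiv ?_
  simp

theorem nn_eq_of_Ψ {u : R} {ξ : L} (h : D.Ψ u = D.j ξ) : D.nn u = 0 := by
  have h1 := congrArg D.st h
  rw [D.st_j, ← h] at h1
  simp only [Ψ, map_add, map_smul, map_sub, D.st_st, D.st_nn] at h1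
  linear_combination (norm := module) h1

variable [CompleteSpace R]

/-- local inverse of `Ψ`. -/
def ψ : R → R := D.hasStrict_Ψ.localInverse _ _ _

theorem ψ_zero : D.ψ 0 = 0 := by
  have := D.hasStrict_Ψ.localInverse_apply_image
  rwa [Ψ_zero] at this

theorem contDiffAt_ψ : ContDiffAt ℝ ω D.ψ 0 := by
  have := (D.contDiff_Ψ.contDiffAt (x := 0)).to_localInverse D.hasStrict_Ψ.hasFDerivAt
    (by simp)
  rwa [Ψ_zero] at this

theorem hasStrict_ψ : HasStrictFDerivAt D.ψ (ContinuousLinearMap.id ℝ R) 0 := by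
  have := D.hasStrict_Ψ.to_localInverse
  rwa [Ψ_zero] at this

theorem ev_nn : ∀ᶠ ξ in 𝓝 (0 : L), D.nn (D.ψ (D.j ξ)) = 0 := by
  have h := D.hasStrict_Ψ.eventually_right_inverse
  rw [Ψ_zero] at h
  have h2 : Tendsto D.j (𝓝 0) (𝓝 0) := D.j.continuous.tendsto' _ _ (map_zero _)
  exact (h2.eventually h).mono fun ξ hξ => D.nn_eq_of_Ψ hξ

open Classical in
/-- The chart of the gauge group at `1`. -/
def e (ξ : L) : D.Gr := if h : D.nn (D.ψ (D.j ξ)) = 0 then ⟨_, h⟩ else 1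

theorem ev_e : ∀ᶠ ξ in 𝓝 (0 : L), (D.e ξ).v = D.ψ (D.j ξ) :=
  D.ev_nn.mono fun ξ h => by rw [e, dif_pos h]; rfl

theorem e_zero : D.e 0 = 1 := Gr.ext (by rw [D.ev_e.self_of_nhds, map_zero, ψ_zero, v_one])

theorem hasStrict_e : HasStrictFDerivAt (fun ξ => (D.e ξ).v) D.j 0 := by
  have h : HasStrictFDerivAt D.ψ (ContinuousLinearMap.id ℝ R) (D.j 0) := by
    simpa using D.hasStrict_ψ
  exact (h.comp 0 D.j.hasStrictFDerivAt).congr_of_eventuallyEq (D.ev_e.mono fun _ h => h.symm)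

theorem contDiffAt_e : ContDiffAt ℝ ω (fun ξ => (D.e ξ).v) 0 := by
  have h : ContDiffAt ℝ ω D.ψ (D.j 0) := by simpa using D.contDiffAt_ψ
  exact (h.comp 0 D.j.contDiff.contDiffAt).congr_of_eventuallyEq D.ev_e

theorem image_e_mem {U : Set L} (hU : U ∈ 𝓝 (0 : L)) : D.e '' U ∈ 𝓝 (1 : D.Gr) := by
  have hv : Tendsto (Gr.v : D.Gr → R) (𝓝 1) (𝓝 0) := continuous_v.tendsto' _ _ v_one
  have hc : Tendsto (fun g : D.Gr => D.q ((1 / 2 : ℝ) • (g.v - D.st g.v))) (𝓝 1) (𝓝 0) :=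
    Continuous.tendsto' (by fun_prop) _ _ (by simp)
  filter_upwards [hv.eventually D.hasStrict_Ψ.eventually_left_inverse, hc.eventually hU,
    hc.eventually D.ev_e] with g h1 h2 h3
  refine ⟨_, h2, Gr.ext ?_⟩
  rw [h3, D.j_q _ (by simp [D.st_st, ← smul_neg])]
  have : D.Ψ g.v = (1 / 2 : ℝ) • (g.v - D.st g.v) := by simp [Ψ, g.nn_v]
  rw [← this]
  exact h1

omit [CompleteSpace R] in
/-- The infinitesimal action `ξ ↦ (-δ ξ + ξ a - a ξ, ξ φ)`. -/
def d (x : C) : L →L[ℝ] C :=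
  D.mk'.comp ((((-ContinuousLinearMap.id ℝ B).prodMap (ContinuousLinearMap.id ℝ S)).comp
    (D.T x x)).comp D.j)

omit [CompleteSpace R] in
theorem d_apply (x : C) (ξ : L) : D.d x ξ = D.mk' (-(D.del (D.j ξ) - D.l (D.j ξ) (D.pa x) +
    D.r (D.j ξ) (D.pa x)), D.a (D.j ξ) (D.ps x) + D.ds (D.j ξ)) := rfl

omit [CompleteSpace R] in
theorem pa_d (x : C) (ξ : L) : D.pa (D.d x ξ) =
    -(D.del (D.j ξ) - D.l (D.j ξ) (D.pa x) + D.r (D.j ξ) (D.pa x)) := by
  rw [d_apply, D.pa_mk]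
  simp only [map_neg, map_add, map_sub, D.sb_del, D.sb_l, D.sb_r, D.st_j, D.sb_pa,
    ContinuousLinearMap.neg_apply]
  abel

omit [CompleteSpace R] in
theorem ps_d (x : C) (ξ : L) : D.ps (D.d x ξ) = D.a (D.j ξ) (D.ps x) + D.ds (D.j ξ) := by
  rw [d_apply, D.ps_mk]

omit [CompleteSpace R] in
theorem d_eq_zero_iff (x : C) (ξ : L) : D.d x ξ = 0 ↔ D.T x x (D.j ξ) = 0 := by
  rw [T_apply, Prod.mk_eq_zero, ← ps_d, ← neg_eq_zero (a := D.del _ - _ + _), ← pa_d]
  exact ⟨fun h => by simp [h], fun h => D.ext_p (by simpa using h.1) (by simpa using h.2)⟩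

theorem contDiffAt_act (x : C) : ContDiffAt ℝ ω (fun q : L × C => D.e q.1 • q.2) (0, x) :=
  (D.contDiff_act (n := ω)).contDiffAt.comp (0, x)
    ((D.contDiffAt_e.comp (0, x) contDiffAt_fst).prodMk contDiffAt_snd)

theorem hasStrict_act (x : C) : HasStrictFDerivAt (fun q : L × C => D.e q.1 • q.2)
    ((D.d x).coprod (ContinuousLinearMap.id ℝ C)) (0, x) := by
  have h0 := (D.contDiffAt_act x).hasStrictFDerivAt (by simp)
  refine h0.congr_fderiv (HasFDerivAt.fderiv ?_)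
  have he : HasFDerivAt (fun q : L × C => (D.e q.1).v) (D.j.comp (ContinuousLinearMap.fst ℝ L C))
      (0, x) := HasFDerivAt.comp (f := Prod.fst) ((0, x) : L × C) D.hasStrict_e.hasFDerivAt
        hasFDerivAt_fst
  have ha : HasFDerivAt (fun q : L × C => D.pa q.2) (D.pa.comp (ContinuousLinearMap.snd ℝ L C))
      (0, x) := D.pa.hasFDerivAt.comp ((0, x) : L × C) hasFDerivAt_snd
  have hs : HasFDerivAt (fun q : L × C => D.ps q.2) (D.ps.comp (ContinuousLinearMap.snd ℝ L C))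
      (0, x) := D.ps.hasFDerivAt.comp ((0, x) : L × C) hasFDerivAt_snd
  have h1 := (ha.add (D.l.hasFDerivAt_of_bilinear he ha)).sub (D.del.hasFDerivAt.comp _ he)
  have h2 := h1.add (D.r.hasFDerivAt_of_bilinear (D.st.hasFDerivAt.comp _ he) h1)
  have h3 := hs.add ((D.a.hasFDerivAt_of_bilinear he hs).add (D.ds.hasFDerivAt.comp _ he))
  have h4 := D.mk'.hasFDerivAt.comp _ (h2.prodMk h3)
  refine HasFDerivAt.congr_fderiv h4 ?_
  refine ContinuousLinearMap.ext fun ⟨ξ, y⟩ => ?_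
  conv_rhs => rw [ContinuousLinearMap.coprod_apply, d_apply, ContinuousLinearMap.id_apply,
    ← D.mk_p y, ← map_add]
  simp only [ContinuousLinearMap.comp_apply, ContinuousLinearMap.prod_apply]
  congr 1
  simp [e_zero, D.st_j]
  constructor <;> abel

end GA

end Crest.Agent.X212.Grp76
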