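import Crest.Agent.X212.Grp76.Md
import Crest.Agent.X212.Grp76.Est
import Crest.Agent.X212.Grp76.Dns

/-! The instances of `Mod61.GrpM`. -/

set_option autoImplicit false
set_option linter.unusedSectionVars false
noncomputable section
open scoped Manifold ContDiff Topology InnerProductSpace
open MeasureTheory Set Function Filter

namespace Crest.Agent.X212.Grp76
open An An.Pre Sob92 Wz78 Std94 Mod61

variable {E : Type} [NormedAddCommGroup E] [NormedSpace ℝ E] [FiniteDimensional ℝ E]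
  [MeasurableSpace E] [BorelSpace E]
  {HM : Type} [TopologicalSpace HM] {I : ModelWithCorners ℝ E HM} [I.Boundaryless]
  {M : Type} [TopologicalSpace M] [ChartedSpace HM M] [IsManifold I ∞ M]
  [MeasurableSpace M] [T2Space M] [BorelSpace M] [SecondCountableTopology M]
  {ι : Type} [Fintype ι] {lam : Type} [Fintype lam]
  {T : Type} [NormedAddCommGroup T] [NormedSpace ℝ T]
  {𝔉 : Fam I M ι lam T} {o : Ref 𝔉} {k : ℕ}

section u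
variable {Z : Type} [NormedAddCommGroup Z] [NormedSpace ℝ Z] (H : (qb o).Hyp 𝔉.F0 k)

/-- the automorphism `p + ξ` -/
def uG (g : (H.ga Z).Gr) (x : M) : CL o.m.V o.m.V := o.m.p x + opL (H.gv g x)

theorem c1_u (g : (H.ga Z).Gr) : ContMDiff I 𝓘(ℝ, CL o.m.V o.m.V) 1 (uG H g) :=
  (o.ok.sp.of_le (by simp)).add (opL.contMDiff.comp (H.c1_gv g))

theorem cu (x : M) : Continuous fun g : (H.ga Z).Gr => uG H g x :=
  continuous_const.add (opL.continuous.comp (H.continuous_gv x))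

variable (h𝔉 : 𝔉.OK)
include h𝔉

theorem itx_gv (g : (H.ga Z).Gr) (x : M) : Itx o.m o.m x (opL (H.gv g x)) :=
  ((Ph_iff h𝔉 x _).1 (H.h_gv g x)).1

theorem gv_off (g : (H.ga Z).Gr) {x : M} (hx : x ∉ 𝔉.Om) : H.gv g x = 0 :=
  ((Ph_iff h𝔉 x _).1 (H.h_gv g x)).2 hx

theorem itx_u (g : (H.ga Z).Gr) (x : M) : Itx o.m o.m x (uG H g x) := by
  obtain ⟨t, ξ, hξ, e⟩ := (itx_iff h𝔉.B (pmx o.ok x) _).1 (itx_gv H h𝔉 g x)
  exact (itx_iff h𝔉.B (pmx o.ok x) _).2 ⟨1 + t, ξ, hξ, by rw [uG, e, add_smul, one_smul, add_assoc]⟩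

theorem trn_u (g : (H.ga Z).Gr) (x : M) : trn (uG H g x) = uG H g⁻¹ x := by
  rw [uG, uG, H.gv_inv, opL_tA]
  exact (map_add ContinuousLinearMap.adjoint _ _).trans
    (congrArg (· + _) (Sym.trn (o.ok.psym x)))

theorem umul (g h : (H.ga Z).Gr) (x : M) : uG H (g * h) x = uG H g x * uG H h x := by
  simp only [uG, H.gv_mul, map_add, opL_mA, mul_add, add_mul, o.ok.pidem,
    (itx_eq (itx_gv H h𝔉 g x)).2.1, (itx_eq (itx_gv H h𝔉 h x)).1]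
  abel

omit h𝔉 in
theorem u_one (x : M) : uG H (1 : (H.ga Z).Gr) x = o.m.p x := by
  rw [uG, QB.Hyp.gv, GA.v_one, val_zero, Pi.zero_apply, map_zero, add_zero]

theorem uu (g : (H.ga Z).Gr) (x : M) :
    trn (uG H g x) ∘L uG H g x = o.m.p x ∧ uG H g x ∘L trn (uG H g x) = o.m.p x := by
  rw [trn_u H h𝔉]
  exact ⟨(umul H h𝔉 _ _ x).symm.trans (by rw [inv_mul_cancel, u_one]),
    (umul H h𝔉 _ _ x).symm.trans (by rw [mul_inv_cancel, u_one])⟩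

include H in
theorem val_mem (v : (qb o).C 𝔉.F0 k Z) (x : M) (a : ι) : 𝔉.F0.val _ _ v.1 x a ∈ o.m.gS x :=
  ((Pg_iff h𝔉 x _).1 (H.g_val v x a)).1

theorem aα (g : (H.ga Z).Gr) (v : (qb o).C 𝔉.F0 k Z) (x : M) (a : ι) : 𝔉.F0.D a (uG H g) x
    + (o.A0 a x + opL (𝔉.F0.val _ _ (g • v).1 x a)) ∘L uG H g x
    - uG H g x ∘L (o.A0 a x + opL (𝔉.F0.val _ _ v.1 x a)) = 0 := by
  have h1 := H.par_smul g v x a
  have h2 := o.conn.cc.par a x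
  have h3 : 𝔉.F0.D a (uG H g) x = dv I (𝔉.G0.F.e a) o.m.p x + opL (𝔉.F0.D a (H.gv g) x) := by
    rw [h𝔉.e0, QB.Hyp.gv, ← H.D_opL g.v a x]
    exact dv_add (o.conn.cc.sp x).md (opL.mdifferentiableAt.comp x (H.md_gv g x))
  have h4 := Wz78.g_p (val_mem H h𝔉 v x a)
  have h5 := g_p' o.ok (val_mem H h𝔉 (g • v) x a)
  rw [h3]
  simp only [uG]
  simp only [QB.conn] at h1
  simp only [← ContinuousLinearMap.mul_def]
  linear_combination (norm := noncomm_ring) h1 + h2 - h4 + h5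

theorem aφ (g : (H.ga Z).Gr) (v : (qb o).C 𝔉.F0 k Z) (x : M) :
    (qb o).spin 𝔉.F0 k (g • v) x = uG H g x ((qb o).spin 𝔉.F0 k v x) := by
  rw [H.spin_smul, uG, _root_.add_apply, p_Pp h𝔉 (H.s_spin v x)]

theorem cj_u (g : (H.ga Z).Gr) {x : M} {η : o.m.A} (h : η ∈ o.m.gS x) : Eqv71.cj (uG H g x) η =
    (η + mA (H.gv g x) η) + mA (η + mA (H.gv g x) η) (tA (H.gv g x)) := opL_inj (by
  rw [Eqv71.opL_cj, trn_u H h𝔉, uG, uG, H.gv_inv]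
  have h4 := Wz78.g_p h
  have h5 := g_p' o.ok h
  simp only [map_add, opL_mA, _root_.add_apply]
  simp only [← ContinuousLinearMap.mul_def]
  simp only [mul_add, add_mul, h5, ← mul_assoc, h4])

theorem Pg_cj (g : (H.ga Z).Gr) {x : M} {η : o.m.A} (h : o.Pg x η = η) :
    o.Pg x (Eqv71.cj (uG H g x) η) = Eqv71.cj (uG H g x) η := by
  have h1 := (H.g_iff x η).1 h
  have h2 := H.h_gv g x
  have h3 := H.mul x _ _ h2 h1.1
  rw [cj_u H h𝔉 g ((Pg_iff h𝔉 x _).1 h).1]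
  refine (H.g_iff x _).2 ⟨?_, ?_⟩
  · rw [map_add, H.mul x _ _ (by rw [map_add, h1.1, h3]) (H.tr x _ h2), map_add, h1.1, h3]
  · simp only [map_add, tA_mA, tA_tA, h1.2, map_neg, _root_.neg_apply, _root_.add_apply, mA_assoc]
    abel

/-- an automorphism over `Om` with `w - p` in the Sobolev space is a gauge transformation -/
theorem exists_g {w : M → CL o.m.V o.m.V}
    (hw : MEq I o.m o.m 𝔉.Om id (fun x b a => 𝔉.B.P b a x) 𝔉.B.l w) {ξ : (qb o).R 𝔉.F0 k}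
    (hξ : 𝔉.F0.val _ _ ξ = 𝔉.Om.indicator fun x => hsL (w x - o.m.p x)) :
    ∃ g : (H.ga Z).Gr, ∀ x ∈ 𝔉.Om, uG H g x = w x := by
  refine ⟨H.mkG ξ fun x => ?_, fun x hx => by
    rw [uG, H.gv_mkG, hξ, indicator_of_mem hx, opL_hsL, add_sub_cancel]⟩
  rw [hξ]
  by_cases hx : x ∈ 𝔉.Om
  · have h1 : trn (w x) * w x = o.m.p x := hw.uu x hx
    have h2 : w x * trn (w x) = o.m.p x := hw.uu' x hx
    have h3 : w x * o.m.p x = w x := Eqv71.comp_proj h1 (o.ok.pidem x)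
    have h4 : o.m.p x * w x = w x := by rw [← h2, mul_assoc, h1, h3]
    have h5 := congrArg trn h4
    rw [trn_mul, Sym.trn (o.ok.psym x)] at h5
    have h6 : trn (w x - o.m.p x) = trn (w x) - o.m.p x :=
      (map_sub ContinuousLinearMap.adjoint _ _).trans (by rw [← trn, ← trn, Sym.trn (o.ok.psym x)])
    refine opL_inj ?_
    simp only [indicator_of_mem hx, map_add, opL_mA, opL_tA, opL_hsL, h6, mul_sub, sub_mul, h1, h4,
      h5, o.ok.pidem, map_zero]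
    abel
  · simp [indicator_of_notMem hx]

omit H in
theorem Ph_w {w : M → CL o.m.V o.m.V}
    (hw : MEq I o.m o.m 𝔉.Om id (fun x b a => 𝔉.B.P b a x) 𝔉.B.l w) (x : M) :
    Ph o x (𝔉.Om.indicator (fun x => hsL (w x - o.m.p x)) x) =
      𝔉.Om.indicator (fun x => hsL (w x - o.m.p x)) x := by
  by_cases hx : x ∈ 𝔉.Om
  · have h1 : trn (w x) * w x = o.m.p x := hw.uu x hx
    have h2 : w x * trn (w x) = o.m.p x := hw.uu' x hx
    have h3 : w x * o.m.p x = w x := Eqv71.comp_proj h1 (o.ok.pidem x)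
    have h4 : o.m.p x * w x = w x := by rw [← h2, mul_assoc, h1, h3]
    obtain ⟨t, ξ, hξ, e⟩ := (itx_iff h𝔉.B (pmx o.ok x) _).1 (itx_of h4 h3
      (fun a => ((hw.ρ x hx a).trans (congrArg (w x ∘L ·) ((o.ok.cl x).proj a))).symm) (hw.J x hx)
      fun s => ((hw.j x hx s).symm.trans (by rw [id, o.ok.jl]; rfl)))
    rw [Ph_iff h𝔉, indicator_of_mem hx, opL_hsL]
    exact ⟨(itx_iff h𝔉.B (pmx o.ok x) _).2 ⟨t - 1, ξ, hξ, by rw [e]; module⟩, fun h => (h hx).elim⟩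
  · rw [indicator_of_notMem hx, map_zero]

end u

section rho
variable {Z : Type} [NormedAddCommGroup Z] [NormedSpace ℝ Z] (H : (qb o).Hyp 𝔉.F0 (k + 1))

/-- the action on negative spinors -/
def rD (g : (H.ga Z).Gr) : 𝔉.F0.H k o.Pm →L[ℝ] 𝔉.F0.H k o.Pm :=
  1 + (qb' o o.Pm 0).aH 𝔉.F0 k (𝔉.F0.incl (k + 2) (k + 1) (Ph o) g.v)

variable (o k) in
/-- products with two-forms -/
def lC (β : CL o.m.A (CL o.m.A o.m.A)) :
    𝔉.F0.H (k + 2) (Ph o) →L[ℝ] 𝔉.F0.H k (triv M (Fm (ι × ι) o.m.A)) →L[ℝ]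
      𝔉.F0.H k (triv M (Fm (ι × ι) o.m.A)) :=
  𝔉.F0.bilH (k + 2) k (Ph o) _ _ k fun _ => onF (ι × ι) β

/-- the action on two-forms -/
def rC (g : (H.ga Z).Gr) : 𝔉.F0.H k o.P2 →L[ℝ] 𝔉.F0.H k o.P2 :=
  𝔉.F0.mulH k _ o.P2 o.P2 ∘L (((1 + lC o k mO g⁻¹.v) * (1 + lC o k mA g.v)) ∘L fg 𝔉.F0.toPre k o.P2)

theorem continuous_rD : Continuous (rD (Z := Z) H) := by unfold rD; fun_prop

theorem continuous_rC : Continuous (rC (Z := Z) H) :=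
  continuous_const.clm_comp (Continuous.clm_comp (by fun_prop) continuous_const)

variable (h𝔉 : 𝔉.OK) (hk : 7 ≤ k)
include h𝔉 hk

theorem val_rD (g : (H.ga Z).Gr) (h : 𝔉.F0.H k o.Pm) (x : M) :
    𝔉.F0.val _ _ (rD H g h) x = uG H g x (𝔉.F0.val _ _ h x) := by
  have K := hypM o h𝔉 hk
  rw [rD, _root_.add_apply, val_add, Pi.add_apply, K.val_a, val_incl H.hS K.k5 (by omega), uG,
    _root_.add_apply, p_Pm h𝔉 (K.proj h x)]
  rfl

theorem val_lC (β : CL o.m.A (CL o.m.A o.m.A)) (u : 𝔉.F0.H (k + 2) (Ph o))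
    (h : 𝔉.F0.H k (triv M (Fm (ι × ι) o.m.A))) (x : M) (s : ι × ι) :
    𝔉.F0.val _ _ ((1 + lC o k β u) h) x s =
      𝔉.F0.val _ _ h x s + β (𝔉.F0.val _ _ u x) (𝔉.F0.val _ _ h x s) := by
  rw [_root_.add_apply, val_add, Pi.add_apply, PiLp.add_apply, lC, val_bilH (hypM o h𝔉 hk).hS
    (Lev.left (by omega) (by omega)) (by omega) (Cb_const _) (Maps₂.triv _), onF_apply]
  rfl

theorem val_rC (g : (H.ga Z).Gr) (h : 𝔉.F0.H k o.P2) (x : M) (s : ι × ι) :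
    𝔉.F0.val _ _ (rC H g h) x s = Eqv71.cj (uG H g x) (𝔉.F0.val _ _ h x s) := by
  have K := hypM o h𝔉 hk
  have h1 := (idx_iff (Pg_Pg h𝔉 x) _).1 (K.proj h x)
  rw [rC, ContinuousLinearMap.comp_apply, val_mulH K.hS K.k4 (cP2 h𝔉) (Maps.of_left (P2_P2 h𝔉)),
    Ref.P2, idx_apply, ← h1.2 s, map_sum]
  refine Finset.sum_congr rfl fun t _ => ?_
  rw [map_smul, ← Pg_cj H h𝔉 g (h1.1 t), cj_u H h𝔉 g ((Pg_iff h𝔉 x _).1 (h1.1 t)).1,
    ContinuousLinearMap.comp_apply, mul_apply_eq_comp, val_lC h𝔉 hk, val_lC h𝔉 hk,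
    val_fg K.hS K.k4, ← H.gv_inv]
  rfl

end rho

section pts
variable (h𝔉 : 𝔉.OK) {r : ℕ}
include h𝔉

theorem hs_iff {V : Type} [NormedAddCommGroup V] [InnerProductSpace ℝ V] [CompleteSpace V]
    {p : M → V →L[ℝ] V} {u : M → V} :
    u ∈ Hs 𝔉.F0.toPre p ↔ Nice 𝔉.F0.toPre u ∧ ∀ x, p x (u x) = u x :=
  all_iff h𝔉.tame.choose_spec

theorem nice_pt (hk : 7 ≤ k) (y : Pnt o r) : Nice 𝔉.F0.toPre (𝔉.F0.val _ _ (y.pt k).1) ∧
    Nice 𝔉.F0.toPre (𝔉.F0.val _ _ (y.pt k).2.1) :=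
  ⟨(val_ofV (k := k + 1) y.hα (by omega)).symm ▸ ((hs_iff h𝔉).1 y.hα).1,
    (val_ofV (k := k + 1) y.hφ (by omega)).symm ▸ ((hs_iff h𝔉).1 y.hφ).1⟩

/-- a point of the Banach model with nice values is smooth -/
theorem exists_pnt (hk : 7 ≤ k) {v : o.C r k} (h1 : Nice 𝔉.F0.toPre (𝔉.F0.val _ _ v.1))
    (h2 : Nice 𝔉.F0.toPre (𝔉.F0.val _ _ v.2.1)) (ht : v.2.2.2 ∈ 𝔉.Q) :
    ∃ y : Pnt o r, v = y.pt k := by
  have K := hypM o h𝔉 hk
  have a1 := (hs_iff h𝔉).2 ⟨h1, K.proj' v.1⟩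
  have a2 := (hs_iff h𝔉).2 ⟨h2, K.proj' v.2.1⟩
  exact ⟨⟨_, _, v.2.2.1, v.2.2.2, a1, a2, ht⟩,
    Prod.ext (K.ext' fun x => (congrFun (val_ofV a1 K.k5) x).symm)
      (Prod.ext (K.ext' fun x => (congrFun (val_ofV a2 K.k5) x).symm) rfl)⟩

end pts

variable (T) in
/-- the parameters -/
abbrev Zr (r : ℕ) : Type := EuclideanSpace ℂ (Fin r) × T

section gm
variable (o) (h𝔉 : 𝔉.OK) (hk : 7 ≤ k) (r : ℕ)

include h𝔉 hk in
theorem hy1 : (qb o).Hyp 𝔉.F0 (k + 1) := hyp o h𝔉 (hk.trans k.le_succ)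

/-- the gauge algebra of level `k` -/
abbrev gaM := (hy1 o h𝔉 hk).ga (Zr T r)

/-- the function `w - p` on `Om` -/
abbrev dif (w : M → CL o.m.V o.m.V) : M → o.m.A := 𝔉.Om.indicator fun x => hsL (w x - o.m.p x)

/-- **The gauge group without the circle.** -/
def gm1 [o.B0] (hy : Nk89.Hdy 𝔉.F0) (Al : (M → CL o.m.V o.m.V) → Circle → Prop)
    (h1 : ∀ w, dif o w ∈ Hs 𝔉.F0.toPre (Ph o) → Al w 1)
    (h2 : ∀ w c, Al w c → MEq I o.m o.m 𝔉.Om id (fun x b a => 𝔉.B.P b a x) 𝔉.B.l w →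
      c = 1 ∧ dif o w ∈ Hs 𝔉.F0.toPre (Ph o)) : GrpM o r k Al where
  G := (gaM o h𝔉 hk r).Gr
  L := 𝔉.F0.H (k + 2) o.Pg
  H := 𝔉.F0.H k o.Pg
  u := uG (hy1 o h𝔉 hk)
  ζ _ := 1
  c1 g := (c1_u _ g).contMDiffOn
  uu g x _ := uu _ h𝔉 g x
  cJ g x _ := (itx_eq (itx_u _ h𝔉 g x)).2.2.2.1
  cρ g x _ a := ((itx_eq (itx_u _ h𝔉 g x)).2.2.1 a).symm
  cj g x _ s := ((itx_eq (itx_u _ h𝔉 g x)).2.2.2.2 s).symm
  umul g h x _ := umul _ h𝔉 g h x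
  ζmul _ _ := (mul_one _).symm
  al g y y' e := h1 _ (by
    have : dif o (uG (hy1 o h𝔉 hk) g) = (hy1 o h𝔉 hk).gv g := funext fun x => by
      by_cases hx : x ∈ 𝔉.Om
      · rw [dif, indicator_of_mem hx, uG, add_sub_cancel_left, hsL_opL]
      · rw [dif, indicator_of_notMem hx, gv_off _ h𝔉 g hx]
    rw [this]
    exact (hs_iff h𝔉).2 ⟨(hy1 o h𝔉 hk).nice_gv h𝔉.tame.choose_spec (nice_pt h𝔉 hk y).1
      (e ▸ (nice_pt h𝔉 hk y').1), (hy1 o h𝔉 hk).h_gv g⟩)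
  aα g v x _ a := by rw [o.A_eq]; exact aα _ h𝔉 g v x a
  aφ g v x := (aφ _ h𝔉 g v x).trans (by simp [cs, QB.spin])
  az g v := ((hy1 o h𝔉 hk).smul_z g v).trans (by simp)
  aff g := (gaM o h𝔉 hk r).aff g.v
  ρD := rD (hy1 o h𝔉 hk)
  ρC := rC (hy1 o h𝔉 hk)
  cD := continuous_rD _
  cC := continuous_rC _
  cζ := continuous_const
  cu := cu _
  vD g h x := (val_rD _ h𝔉 hk g h x).trans (by simp [cs])
  vC := val_rC _ h𝔉 hk
  surj y y' w c _ ha he := by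
    obtain ⟨rfl, h3⟩ := h2 w c ha he.m
    obtain ⟨ξ, hξ⟩ := h3 (k + 2) (by omega)
    obtain ⟨g, hg⟩ := exists_g (Z := Zr T r) (hy1 o h𝔉 hk) h𝔉 he.m hξ
    exact ⟨g, hg, rfl⟩
  dense y := (hy1 o h𝔉 hk).dense_sm.mono fun g hg =>
    exists_pnt h𝔉 hk ((hy1 o h𝔉 hk).nice_smul1 (.of_hcs hg.1 hg.2) (nice_pt h𝔉 hk y).1)
      ((hy1 o h𝔉 hk).nice_smul2 (.of_hcs hg.1 hg.2) (nice_pt h𝔉 hk y).2)
      (by rw [(hy1 o h𝔉 hk).smul_z]; exact y.ht)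
  proper y y' := (hy1 o h𝔉 hk).propAt hy (nice_pt h𝔉 hk y).1.sm (nice_pt h𝔉 hk y').1.sm

/-- the gauge group on a manifold with ends -/
def gmE [o.B0] (hy : Nk89.Hdy 𝔉.F0) :
    GrpM o r k fun w c => c = 1 ∧ dif o w ∈ Hs 𝔉.F0.toPre (Ph o) :=
  gm1 o h𝔉 hk r hy _ (fun _ h => ⟨rfl, h⟩) fun _ _ h _ => h

omit hk in
include h𝔉 in
theorem dif_mem [CompactSpace M] {w : M → CL o.m.V o.m.V}
    (hw : MEq I o.m o.m 𝔉.Om id (fun x b a => 𝔉.B.P b a x) 𝔉.B.l w) :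
    dif o w ∈ Hs 𝔉.F0.toPre (Ph o) :=
  (hs_iff h𝔉).2 ⟨.of_hcs (sm_ind h𝔉.Om fun x hx => hsL.contMDiff.contMDiffAt.comp x
    ((hw.su.contMDiffAt (h𝔉.Om.2.mem_nhds hx)).sub (o.ok.sp x))) (.of_compactSpace _), Ph_w h𝔉 hw⟩

/-- the gauge group without the circle on a closed manifold -/
def gmA [o.B0] [CompactSpace M] : GrpM o r k fun _ c => c = 1 :=
  gm1 o h𝔉 hk r (Nk89.hdy_compact _) _ (fun _ _ => rfl) fun _ _ h hw => ⟨h, dif_mem o h𝔉 hw⟩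

end gm

end Crest.Agent.X212.Grp76
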