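import Mathlib

/-! The Sobolev gauge group, format free: the group of units `1 + ξ` of a non unital Banach
`*`-algebra, its affine action on (connection, spinor) pairs. -/

set_option autoImplicit false

noncomputable section

open Set Filter Topology

namespace Crest.Agent.X212.Grp76

/-- Algebraic data of a gauge group.  `R` = sections of the quaternion bundle (one derivative
more), `B` = one-forms with values in it, `S` = spinors (and whatever else `R` acts on),
`C` = configuration space (identified with skew elements of `B` times `S`),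
`L` = Lie algebra (identified with the skew elements of `R`). -/
structure GA (R B S C L : Type*) [NormedAddCommGroup R] [NormedSpace ℝ R]
    [NormedAddCommGroup B] [NormedSpace ℝ B] [NormedAddCommGroup S] [NormedSpace ℝ S]
    [NormedAddCommGroup C] [NormedSpace ℝ C] [NormedAddCommGroup L] [NormedSpace ℝ L] where
  /-- product -/
  m : R →L[ℝ] R →L[ℝ] R
  /-- star -/
  st : R →L[ℝ] R
  /-- `l u b = u * b` -/
  l : R →L[ℝ] B →L[ℝ] B
  /-- `r u b = b * u` -/
  r : R →L[ℝ] B →L[ℝ] B
  /-- star on `B` -/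
  sb : B →L[ℝ] B
  /-- covariant derivative of the base connection -/
  del : R →L[ℝ] B
  /-- action on spinors -/
  a : R →L[ℝ] S →L[ℝ] S
  /-- action on the base spinor -/
  ds : R →L[ℝ] S
  pa : C →L[ℝ] B
  ps : C →L[ℝ] S
  mk' : B × S →L[ℝ] C
  j : L →L[ℝ] R
  q : R →L[ℝ] L
  m_assoc : ∀ u v w, m (m u v) w = m u (m v w)
  st_st : ∀ u, st (st u) = u
  st_m : ∀ u v, st (m u v) = m (st v) (st u)
  normal : ∀ u, m u (st u) = m (st u) u
  l_m : ∀ u v b, l (m u v) b = l u (l v b)
  r_m : ∀ u v b, r (m u v) b = r v (r u b)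
  l_r : ∀ u v b, l u (r v b) = r v (l u b)
  del_m : ∀ u v, del (m u v) = r v (del u) + l u (del v)
  sb_l : ∀ u b, sb (l u b) = r (st u) (sb b)
  sb_r : ∀ u b, sb (r u b) = l (st u) (sb b)
  sb_del : ∀ u, sb (del u) = del (st u)
  a_m : ∀ u v s, a (m u v) s = a u (a v s)
  ds_m : ∀ u v, ds (m u v) = a u (ds v)
  sb_pa : ∀ x, sb (pa x) = -pa x
  mk_p : ∀ x, mk' (pa x, ps x) = x
  pa_mk : ∀ b s, sb b = -b → pa (mk' (b, s)) = b
  ps_mk : ∀ b s, ps (mk' (b, s)) = s
  st_j : ∀ ξ, st (j ξ) = -j ξ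
  q_j : ∀ ξ, q (j ξ) = ξ
  j_q : ∀ u, st u = -u → j (q u) = u

variable {R B S C L : Type*} [NormedAddCommGroup R] [NormedSpace ℝ R]
  [NormedAddCommGroup B] [NormedSpace ℝ B] [NormedAddCommGroup S] [NormedSpace ℝ S]
  [NormedAddCommGroup C] [NormedSpace ℝ C] [NormedAddCommGroup L] [NormedSpace ℝ L]

namespace GA

variable (D : GA R B S C L)

/-- `(1+u)(1+v) = 1 + o u v`. -/
def o (u v : R) : R := u + v + D.m u v

/-- `(1+u)^*(1+u) - 1`. -/
def nn (u : R) : R := u + D.st u + D.m (D.st u) u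

theorem o_assoc (u v w : R) : D.o (D.o u v) w = D.o u (D.o v w) := by
  simp only [o, map_add, ContinuousLinearMap.add_apply, D.m_assoc]; abel

@[simp] theorem o_zero (u : R) : D.o u 0 = u := by simp [o]

@[simp] theorem zero_o (u : R) : D.o 0 u = u := by simp [o]

theorem st_o (u v : R) : D.st (D.o u v) = D.o (D.st v) (D.st u) := by
  simp only [o, map_add, D.st_m]; abel

theorem nn_eq (u : R) : D.nn u = D.o (D.st u) u := by simp only [o, nn]; abel

theorem nn_eq' (u : R) : D.nn u = D.o u (D.st u) := by simp only [o, nn, D.normal]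

theorem st_nn (u : R) : D.st (D.nn u) = D.nn u := by rw [nn_eq, st_o, D.st_st]

theorem nn_o {u v : R} (hu : D.nn u = 0) (hv : D.nn v = 0) : D.nn (D.o u v) = 0 := by
  rw [nn_eq] at *
  rw [st_o, o_assoc, ← D.o_assoc (D.st u), hu, zero_o, hv]

theorem nn_st {u : R} (hu : D.nn u = 0) : D.nn (D.st u) = 0 := by
  rw [nn_eq, D.st_st, ← nn_eq', hu]

theorem continuous_nn : Continuous D.nn := by unfold nn; fun_prop

theorem contDiff_nn {n : WithTop ℕ∞} : ContDiff ℝ n D.nn := by unfold nn; fun_prop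

/-- The gauge group: `ξ` with `1 + ξ` unitary. -/
def Gr : Type _ := {u : R // D.nn u = 0}

variable {D}

/-- The underlying element `ξ = g - 1`. -/
def Gr.v (g : D.Gr) : R := g.1

theorem Gr.nn_v (g : D.Gr) : D.nn g.v = 0 := g.2

@[ext] theorem Gr.ext {g h : D.Gr} (e : g.v = h.v) : g = h := Subtype.ext e

variable (D)

instance : TopologicalSpace D.Gr := inferInstanceAs (TopologicalSpace {u : R // D.nn u = 0})

instance : MetricSpace D.Gr := inferInstanceAs (MetricSpace {u : R // D.nn u = 0})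

instance : Group D.Gr where
  mul g h := ⟨D.o g.v h.v, D.nn_o g.2 h.2⟩
  one := ⟨0, by simp [nn]⟩
  inv g := ⟨D.st g.v, D.nn_st g.2⟩
  mul_assoc g h k := Gr.ext (D.o_assoc _ _ _)
  one_mul g := Gr.ext (D.zero_o _)
  mul_one g := Gr.ext (D.o_zero _)
  inv_mul_cancel g := Gr.ext ((D.nn_eq _).symm.trans g.2)

variable {D}

@[simp] theorem v_mul (g h : D.Gr) : (g * h).v = D.o g.v h.v := rfl
@[simp] theorem v_one : (1 : D.Gr).v = 0 := rfl
@[simp] theorem v_inv (g : D.Gr) : g⁻¹.v = D.st g.v := rfl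

theorem isEmbedding_v : IsEmbedding (Gr.v : D.Gr → R) := IsEmbedding.subtypeVal

@[fun_prop] theorem continuous_v : Continuous (Gr.v : D.Gr → R) := continuous_subtype_val

theorem tendsto_iff_v {ι : Type*} {f : Filter ι} {g : ι → D.Gr} {k : D.Gr} :
    Tendsto g f (𝓝 k) ↔ Tendsto (fun n => (g n).v) f (𝓝 k.v) := tendsto_subtype_rng

instance : IsTopologicalGroup D.Gr where
  continuous_mul := isEmbedding_v.continuous_iff.2 (by
    show Continuous fun p : D.Gr × D.Gr => D.o p.1.v p.2.v
    unfold o; fun_prop)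
  continuous_inv := isEmbedding_v.continuous_iff.2 (by
    show Continuous fun p : D.Gr => D.st p.v
    fun_prop)

variable (D)

/-- left multiplication by `1 + u`. -/
def lo (u : R) (b : B) : B := b + D.l u b

/-- right multiplication by `1 + u`. -/
def ro (u : R) (b : B) : B := b + D.r u b

/-- (affine) action of `1 + u` on spinors. -/
def ao (u : R) (s : S) : S := s + (D.a u s + D.ds u)

theorem lo_o (u v : R) (b : B) : D.lo (D.o u v) b = D.lo u (D.lo v b) := by
  simp only [lo, o, map_add, ContinuousLinearMap.add_apply, D.l_m]; abel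

theorem ro_o (u v : R) (b : B) : D.ro (D.o u v) b = D.ro v (D.ro u b) := by
  simp only [ro, o, map_add, ContinuousLinearMap.add_apply, D.r_m]; abel

theorem ao_o (u v : R) (s : S) : D.ao (D.o u v) s = D.ao u (D.ao v s) := by
  simp only [ao, o, map_add, ContinuousLinearMap.add_apply, D.a_m, D.ds_m]; abel

theorem lo_ro (u v : R) (b : B) : D.lo u (D.ro v b) = D.ro v (D.lo u b) := by
  simp only [lo, ro, map_add, D.l_r]; abel

@[simp] theorem lo_zero (b : B) : D.lo 0 b = b := by simp [lo]
@[simp] theorem ro_zero (b : B) : D.ro 0 b = b := by simp [ro]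
@[simp] theorem ao_zero (s : S) : D.ao 0 s = s := by simp [ao]

theorem lo_sub (u : R) (b c : B) : D.lo u (b - c) = D.lo u b - D.lo u c := by
  simp only [lo, map_sub]; abel

theorem ro_sub (u : R) (b c : B) : D.ro u (b - c) = D.ro u b - D.ro u c := by
  simp only [ro, map_sub]; abel

theorem del_o (u v : R) : D.del (D.o u v) = D.ro v (D.del u) + D.lo u (D.del v) := by
  simp only [lo, ro, o, map_add, D.del_m]; abel

theorem sb_lo (u : R) (b : B) : D.sb (D.lo u b) = D.ro (D.st u) (D.sb b) := by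
  simp only [lo, ro, map_add, D.sb_l]

theorem sb_ro (u : R) (b : B) : D.sb (D.ro u b) = D.lo (D.st u) (D.sb b) := by
  simp only [lo, ro, map_add, D.sb_r]

/-- The transformed connection form `((1+u) b - δ u) (1+u)^*`. -/
def cn (u : R) (b : B) : B := D.ro (D.st u) (D.lo u b - D.del u)

theorem ro_add (u : R) (b c : B) : D.ro u (b + c) = D.ro u b + D.ro u c := by
  simp only [ro, map_add]; abel

theorem cn_mul (g h : D.Gr) (b : B) : D.cn (g * h).v b = D.cn g.v (D.cn h.v b) := by
  have e : D.ro (D.st h.v) (D.ro h.v (D.del g.v)) = D.del g.v := by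
    rw [← D.ro_o h.v, ← nn_eq', h.nn_v, ro_zero]
  simp only [v_mul, cn, st_o, ro_o, lo_o, del_o, lo_ro, lo_sub, ro_sub, ro_add, e]
  abel

theorem sb_cn {u : R} (hu : D.nn u = 0) {b : B} (hb : D.sb b = -b) :
    D.sb (D.cn u b) = -D.cn u b := by
  have h := congrArg D.del ((D.nn_eq' u).symm.trans hu)
  rw [del_o, map_zero] at h
  rw [cn, sb_ro, D.st_st, map_sub, sb_lo, hb, D.sb_del, lo_sub, ro_sub, lo_ro,
    eq_neg_of_add_eq_zero_right h]
  simp only [lo, ro, map_neg, map_add]; abel

/-- The action formula, for any `u`. -/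
def act (u : R) (x : C) : C := D.mk' (D.cn u (D.pa x), D.ao u (D.ps x))

theorem contDiff_act {n : WithTop ℕ∞} : ContDiff ℝ n fun p : R × C => D.act p.1 p.2 := by
  unfold act cn ao lo ro; fun_prop

theorem pa_act {u : R} (hu : D.nn u = 0) (x : C) : D.pa (D.act u x) = D.cn u (D.pa x) :=
  D.pa_mk _ _ (D.sb_cn hu (D.sb_pa x))

theorem ps_act (u : R) (x : C) : D.ps (D.act u x) = D.ao u (D.ps x) := D.ps_mk _ _

theorem ext_p {x y : C} (h1 : D.pa x = D.pa y) (h2 : D.ps x = D.ps y) : x = y := by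
  rw [← D.mk_p x, h1, h2, D.mk_p]

@[simp] theorem act_zero (x : C) : D.act 0 x = x := by simp [act, cn, D.mk_p]

instance : MulAction D.Gr C where
  smul g x := D.act g.v x
  one_smul x := D.act_zero x
  mul_smul g h x := by
    show D.act (g * h).v x = D.act g.v (D.act h.v x)
    conv_rhs => rw [act, D.pa_act h.nn_v, ps_act, ← cn_mul, ← ao_o]
    rfl

variable {D}

theorem smul_def (g : D.Gr) (x : C) : g • x = D.act g.v x := rfl

theorem pa_smul (g : D.Gr) (x : C) : D.pa (g • x) = D.cn g.v (D.pa x) := D.pa_act g.2 x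

theorem ps_smul (g : D.Gr) (x : C) : D.ps (g • x) = D.ao g.v (D.ps x) := D.ps_act g.v x

instance : ContinuousSMul D.Gr C where
  continuous_smul := (D.contDiff_act (n := 0)).continuous.comp
    ((continuous_v.comp continuous_fst).prodMk continuous_snd)

variable (D)

/-- The linear operator `u ↦ (δ u - u a + b u, u φ)` attached to two configurations
`x = (a, φ)`, `y = (b, ψ)`. -/
def T (x y : C) : R →L[ℝ] B × S :=
  (D.del - D.l.flip (D.pa x) + D.r.flip (D.pa y)).prod (D.a.flip (D.ps x) + D.ds)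

theorem T_apply (x y : C) (u : R) :
    D.T x y u = (D.del u - D.l u (D.pa x) + D.r u (D.pa y), D.a u (D.ps x) + D.ds u) := rfl

theorem continuous_T : Continuous fun p : C × C => D.T p.1 p.2 := by
  have h : (fun p : C × C => D.T p.1 p.2) = fun p : C × C =>
      (ContinuousLinearMap.prodₗᵢ ℝ : ((R →L[ℝ] B) × (R →L[ℝ] S)) ≃ₗᵢ[ℝ] (R →L[ℝ] B × S))
        (D.del - D.l.flip (D.pa p.1) + D.r.flip (D.pa p.2), D.a.flip (D.ps p.1) + D.ds) := rfl
  rw [h]
  exact (LinearIsometryEquiv.continuous _).comp (by fun_prop)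

variable {D}

/-- Gauge equivalence is a LINEAR equation for `g - 1`. -/
theorem smul_eq_iff (g : D.Gr) (x y : C) :
    g • x = y ↔ D.T x y g.v = (D.pa x - D.pa y, D.ps y - D.ps x) := by
  have key : D.cn g.v (D.pa x) = D.pa y ↔ D.lo g.v (D.pa x) - D.del g.v = D.ro g.v (D.pa y) := by
    constructor
    · intro h
      rw [← h, cn, ← ro_o, ← nn_eq, g.nn_v, ro_zero]
    · intro h
      rw [cn, h, ← ro_o, ← nn_eq', g.nn_v, ro_zero]
  rw [T_apply, Prod.mk.injEq]
  constructor
  · rintro rfl
    refine ⟨?_, by rw [ps_smul, ao]; abel⟩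
    have h := key.1 (pa_smul g x).symm
    simp only [lo, ro] at h
    linear_combination (norm := abel) -h
  · rintro ⟨h1, h2⟩
    refine D.ext_p ?_ ?_
    · rw [pa_smul, key]
      simp only [lo, ro]
      linear_combination (norm := abel) -h1
    · rw [ps_smul, ao, h2]; abel

theorem smul_eq_self_iff (g : D.Gr) (x : C) : g • x = x ↔ D.T x x g.v = 0 := by
  rw [smul_eq_iff, sub_self, sub_self]; rfl

end GA

end Crest.Agent.X212.Grp76
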