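import Crest.Agent.X212.Grp76.Gm

/-! The gauge group with the circle. -/

set_option autoImplicit false
set_option linter.unusedSectionVars false
noncomputable section
open scoped Manifold ContDiff Topology InnerProductSpace
open MeasureTheory Set Function Filter

namespace Crest.Agent.X212.Grp76
open An An.Pre Sob92 Wz78 Std94 Mod61

variable {E : Type} [NormedAddCommGroup E] [NormedSpace ℝ E] [FiniteDimensional ℝ E]
  [MeasurableSpace E] [BorelSpace E]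
  {HM : Type} [TopologicalSpace HM] {I : ModelWithCorners ℝ E HM} [I.Boundaryless]
  {M : Type} [TopologicalSpace M] [ChartedSpace HM M] [IsManifold I ∞ M]
  [MeasurableSpace M] [T2Space M] [BorelSpace M] [SecondCountableTopology M]
  {ι : Type} [Fintype ι] {lam : Type} [Fintype lam]
  {T : Type} [NormedAddCommGroup T] [NormedSpace ℝ T]
  {𝔉 : Fam I M ι lam T} {o : Ref 𝔉} {k : ℕ}

section gm
variable (o) (h𝔉 : 𝔉.OK) (hk : 7 ≤ k) (r : ℕ)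

variable (T) in
/-- weight two on `z` -/
abbrev crZ : CR (Zr T r) := (CR.wt (EuclideanSpace ℂ (Fin r)) 2).prod (CR.triv T)

/-- the gauge algebra with the circle -/
abbrev gxM (h0 : o.Φ0 = 0) := (hy1 o h𝔉 hk).gx (cJ h𝔉 h0) (crZ T r)

/-- **The gauge group with the circle on a closed manifold.** -/
def gmC [o.B0] [CompactSpace M] (h0 : o.Φ0 = 0) : GrpM o r k fun _ _ => True where
  G := (gxM o h𝔉 hk r h0).Gx
  L := 𝔉.F0.H (k + 2) o.Pg × ℝ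
  H := 𝔉.F0.H k o.Pg × ℝ
  cG := GX.instIsTopologicalGroupGx _
  u a := uG (hy1 o h𝔉 hk) a.g
  ζ a := a.ζ
  c1 a := (c1_u _ a.g).contMDiffOn
  uu a x _ := uu _ h𝔉 a.g x
  cJ a x _ := (itx_eq (itx_u _ h𝔉 a.g x)).2.2.2.1
  cρ a x _ b := ((itx_eq (itx_u _ h𝔉 a.g x)).2.2.1 b).symm
  cj a x _ s := ((itx_eq (itx_u _ h𝔉 a.g x)).2.2.2.2 s).symm
  umul a b x _ := umul _ h𝔉 a.g b.g x
  ζmul _ _ := rfl
  al _ _ _ _ := trivial
  aα a v x _ b := by rw [o.A_eq]; exact aα _ h𝔉 a.g ((gxM o h𝔉 hk r h0).ρ a.ζ v) x b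
  aφ a v x := (aφ (hy1 o h𝔉 hk) h𝔉 a.g ((gxM o h𝔉 hk r h0).ρ a.ζ v) x).trans (by
    rw [QB.Hyp.spin_ρ]
    simp only [cs, map_add, map_smul, (itx_u _ h𝔉 a.g x).J, QB.spin])
  az a v := ((hy1 o h𝔉 hk).smul_z a.g _).trans (Prod.ext (CR.wt_apply 2 _ _) rfl)
  aff a := by
    obtain ⟨A, hA⟩ := (gaM o h𝔉 hk r).aff a.g.v
    refine ⟨A ∘L (gxM o h𝔉 hk r h0).ρ a.ζ, fun v => (hA _).trans ?_⟩
    rw [GX.smul_def, map_zero]; rfl
  ρD a := ((hypM o h𝔉 hk).crS (cJM h𝔉)).ρ a.ζ ∘L rD (hy1 o h𝔉 hk) a.g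
  ρC a := rC (hy1 o h𝔉 hk) a.g
  cD := (((hypM o h𝔉 hk).crS (cJM h𝔉)).cont.comp continuous_snd).clm_comp
    ((continuous_rD _).comp continuous_fst)
  cC := (continuous_rC _).comp continuous_fst
  cζ := continuous_snd
  cu x := (cu _ x).comp continuous_fst
  vD a h x := by
    rw [ContinuousLinearMap.comp_apply, (hypM o h𝔉 hk).val_crS, val_rD _ h𝔉 hk]
  vC a := val_rC _ h𝔉 hk a.g
  surj y y' w c _ _ he := by
    obtain ⟨ξ, hξ⟩ := dif_mem o h𝔉 he.m (k + 2) (by omega)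
    obtain ⟨g, hg⟩ := exists_g (Z := Zr T r) (hy1 o h𝔉 hk) h𝔉 he.m hξ
    exact ⟨GX.mk₂ g c, hg, rfl⟩
  dense y := ((hy1 o h𝔉 hk).dense_sm.preimage isOpenMap_fst).mono fun a ha => by
    have h1 := (nice_pt h𝔉 hk y).2
    have h2 : Nice 𝔉.F0.toPre (𝔉.F0.val _ _ ((gxM o h𝔉 hk r h0).ρ a.2 (y.pt k)).2.1) := by
      rw [QB.Hyp.ρ_2, funext ((hy1 o h𝔉 hk).val_crS _ _ _)]
      exact (h1.clm ((a.2 : ℂ).re • .id ℝ _)).add (h1.clm ((a.2 : ℂ).im • o.m.J))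
    exact exists_pnt h𝔉 hk ((hy1 o h𝔉 hk).nice_smul1 (.of_hcs ha.1 ha.2) (nice_pt h𝔉 hk y).1)
      ((hy1 o h𝔉 hk).nice_smul2 (.of_hcs ha.1 ha.2) h2)
      ((congrArg Prod.snd ((hy1 o h𝔉 hk).smul_z a.g _)).symm ▸ y.ht)
  proper y y' := (hy1 o h𝔉 hk).propAt_gx _ _ (Nk89.hdy_compact _) (nice_pt h𝔉 hk y).1.sm
    (nice_pt h𝔉 hk y').1.sm

end gm

end Crest.Agent.X212.Grp76
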