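import Crest.Agent.X212.Grp76.Pt
import Crest.Agent.X212.Grp76.Ext

/-! The Sobolev gauge group `1 + L²_{k+1}(h)` acting on `L²_k(c) × L²_k(s) × Z`. -/

set_option autoImplicit false
set_option linter.unusedSectionVars false
noncomputable section
open scoped Manifold ContDiff Topology InnerProductSpace
open MeasureTheory Set Function Filter

namespace Crest.Agent.X212.Grp76
open An An.Pre Sob92 Wz78

variable {E : Type} [NormedAddCommGroup E] [NormedSpace ℝ E] [FiniteDimensional ℝ E]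
  [MeasurableSpace E] [BorelSpace E]
  {HM : Type} [TopologicalSpace HM] {I : ModelWithCorners ℝ E HM} [I.Boundaryless]
  {M : Type} [TopologicalSpace M] [ChartedSpace HM M] [IsManifold I ∞ M]
  [MeasurableSpace M] [T2Space M] [BorelSpace M] [SecondCountableTopology M]
  {ι : Type} [Fintype ι] {κ : Type} [Fintype κ] [DecidableEq κ]

namespace QB
variable (Q : QB M ι κ) (F : Fr I M ι) (k : ℕ)
  (Z : Type) [NormedAddCommGroup Z] [NormedSpace ℝ Z]

/-- the algebra -/
abbrev R : Type := F.H (k + 1) Q.h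
/-- the Lie algebra -/
abbrev L : Type := F.H (k + 1) Q.g
/-- one-forms with values in `h` -/
abbrev Bf : Type := F.H k (Q.b F)
/-- spinors and parameters -/
abbrev S : Type := F.H k Q.s × Z
/-- configurations -/
abbrev C : Type := F.H k Q.c × F.H k Q.s × Z

/-- product -/
def mH : Q.R F k →L[ℝ] Q.R F k →L[ℝ] Q.R F k := F.bilH (k + 1) (k + 1) Q.h Q.h Q.h (k + 1) fun _ => mA
/-- transpose -/
def tH : Q.R F k →L[ℝ] Q.R F k := F.mulH (k + 1) Q.h Q.h fun _ => tA
/-- products with forms -/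
def lH (β : CL (HS κ) (CL (HS κ) (HS κ))) : Q.R F k →L[ℝ] Q.Bf F k →L[ℝ] Q.Bf F k :=
  F.bilH (k + 1) k Q.h (Q.b F) (Q.b F) k fun _ => onF ι β
/-- transpose of forms -/
def sbH : Q.Bf F k →L[ℝ] Q.Bf F k := F.mulH k (Q.b F) (Q.b F) fun _ => tF ι
/-- covariant derivative -/
def delH : Q.R F k →L[ℝ] Q.Bf F k := F.opH k Q.h (Q.b F) (Q.σ F) (Q.B0 F)
/-- action on spinors -/
def aH : Q.R F k →L[ℝ] F.H k Q.s →L[ℝ] F.H k Q.s := F.bilH (k + 1) k Q.h Q.s Q.s k fun _ => opL
/-- action on the base spinor -/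
def dsH : Q.R F k →L[ℝ] F.H k Q.s :=
  (F.mulH k Q.h Q.s fun x => evA (Q.Φ x)) ∘L F.incl (k + 1) k Q.h
/-- forms with values in `g` as forms with values in `h` -/
def paH : F.H k Q.c →L[ℝ] Q.Bf F k := F.mulH k Q.c (Q.b F) (triv M _)
/-- the projection back -/
def cH : Q.Bf F k →L[ℝ] F.H k Q.c := F.mulH k (Q.b F) Q.c Q.c
/-- the inclusion of the Lie algebra -/
def jH : Q.L F k →L[ℝ] Q.R F k := F.mulH (k + 1) Q.g Q.h (triv M _)
/-- the projection to the Lie algebra -/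
def qH : Q.R F k →L[ℝ] Q.L F k := F.mulH (k + 1) Q.h Q.g Q.g

/-- the action on `S` -/
def aS : Q.R F k →L[ℝ] Q.S F k Z →L[ℝ] Q.S F k Z :=
  ((ContinuousLinearMap.compL ℝ (Q.S F k Z) (F.H k Q.s) (Q.S F k Z)
    (ContinuousLinearMap.inl ℝ _ _)).comp
    ((ContinuousLinearMap.compL ℝ (Q.S F k Z) (F.H k Q.s) (F.H k Q.s)).flip
      (ContinuousLinearMap.fst ℝ _ _))).comp (Q.aH F k)

theorem aS_apply (u : Q.R F k) (y : Q.S F k Z) : Q.aS F k Z u y = (Q.aH F k u y.1, 0) := rfl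

/-- all the hypotheses -/
structure Hyp : Prop extends Q.OK F where
  sup : ∃ S, Sup F.toPre S
  hk : 7 ≤ k

variable {Q F k Z}

namespace Hyp
variable (H : Q.Hyp F k)
include H

theorem hS : Sup F.toPre H.sup.choose := H.sup.choose_spec
theorem k4 : 4 ≤ k := by have := H.hk; omega
theorem k5 : 4 ≤ k + 1 := by have := H.hk; omega
theorem lev : Lev (k + 1) k k := Lev.left (by have := H.hk; omega) k.le_succ

section
variable {V : Type} [NormedAddCommGroup V] [InnerProductSpace ℝ V] [CompleteSpace V]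
  {p : M → V →L[ℝ] V}

theorem ext {u v : F.H k p} (h : ∀ x, F.val k p u x = F.val k p v x) : u = v :=
  val_injective H.hS H.k4 (funext h)

theorem ext' {u v : F.H (k + 1) p} (h : ∀ x, F.val (k + 1) p u x = F.val (k + 1) p v x) : u = v :=
  val_injective H.hS H.k5 (funext h)

theorem md (u : F.H (k + 1) p) : MDifferentiable I 𝓘(ℝ, V) (F.val (k + 1) p u) :=
  (val_DH H.hS H.k4 u).1

theorem proj (u : F.H k p) (x : M) : p x (F.val k p u x) = F.val k p u x := val_proj H.hS H.k4 u x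

theorem proj' (u : F.H (k + 1) p) (x : M) : p x (F.val (k + 1) p u x) = F.val (k + 1) p u x :=
  val_proj H.hS H.k5 u x

end

theorem val_m (u v : Q.R F k) (x : M) :
    F.val _ _ (Q.mH F k u v) x = mA (F.val _ _ u x) (F.val _ _ v x) :=
  val_bilH H.hS (Lev.self (by have := H.hk; omega)) H.k5 (Cb_const _) H.m_mA u v x

theorem val_t (u : Q.R F k) (x : M) : F.val _ _ (Q.tH F k u) x = tA (F.val _ _ u x) :=
  val_mulH H.hS H.k5 (Cb_const _) H.m_tA u x

theorem val_l (u : Q.R F k) (b : Q.Bf F k) (x : M) (a : ι) :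
    F.val _ _ (Q.lH F k mA u b) x a = mA (F.val _ _ u x) (F.val _ _ b x a) := by
  rw [lH, val_bilH H.hS H.lev H.k4 (Cb_const _) H.m_l, onF_apply]

theorem val_r (u : Q.R F k) (b : Q.Bf F k) (x : M) (a : ι) :
    F.val _ _ (Q.lH F k mO u b) x a = mA (F.val _ _ b x a) (F.val _ _ u x) := by
  rw [lH, val_bilH H.hS H.lev H.k4 (Cb_const _) H.m_r, onF_apply, mO_apply]

theorem val_sb (b : Q.Bf F k) (x : M) (a : ι) :
    F.val _ _ (Q.sbH F k b) x a = tA (F.val _ _ b x a) := by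
  rw [sbH, val_mulH H.hS H.k4 (Cb_const _) H.m_tF, tF_apply]

theorem val_del (u : Q.R F k) (x : M) (a : ι) :
    F.val _ _ (Q.delH F k u) x a = nab I F.e Q.ad a (F.val _ _ u) x := by
  rw [delH, val_opH H.hS H.k4 H.cσ H.cB0 (fun a x v => H.bb x _) (Maps.of_left fun x v => H.bb x _),
    H.op_del (H.md u) (H.proj' u)]

theorem val_a (u : Q.R F k) (φ : F.H k Q.s) (x : M) :
    F.val _ _ (Q.aH F k u φ) x = opL (F.val _ _ u x) (F.val _ _ φ x) :=
  val_bilH H.hS H.lev H.k4 (Cb_const _) H.m_a u φ x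

theorem val_ds (u : Q.R F k) (x : M) :
    F.val _ _ (Q.dsH F k u) x = opL (F.val _ _ u x) (Q.Φ x) := by
  rw [dsH, ContinuousLinearMap.comp_apply, val_mulH H.hS H.k4 H.cev H.m_ds,
    val_incl H.hS H.k4 k.le_succ, evA_apply]

theorem val_pa (α : F.H k Q.c) (x : M) : F.val _ _ (Q.paH F k α) x = F.val _ _ α x :=
  val_mulH H.hS H.k4 (Cb_const _) H.m_pa α x

theorem val_c (b : Q.Bf F k) (x : M) : F.val _ _ (Q.cH F k b) x = Q.c x (F.val _ _ b x) :=
  val_mulH H.hS H.k4 H.cc H.m_c b x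

theorem val_j (ξ : Q.L F k) (x : M) : F.val _ _ (Q.jH F k ξ) x = F.val _ _ ξ x :=
  val_mulH H.hS H.k5 (Cb_const _) H.m_j ξ x

theorem val_j' (ξ : Q.L F k) : F.val _ _ (Q.jH F k ξ) = F.val _ _ ξ := funext (H.val_j ξ)

theorem val_q (u : Q.R F k) (x : M) : F.val _ _ (Q.qH F k u) x = Q.g x (F.val _ _ u x) :=
  val_mulH H.hS H.k5 H.cg H.m_q u x

theorem nab_m {u v : M → HS κ} {x : M} (hu : MDifferentiableAt I 𝓘(ℝ, HS κ) u x)
    (hv : MDifferentiableAt I 𝓘(ℝ, HS κ) v x) (a : ι) :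
    nab I F.e Q.ad a (fun y => mA (u y) (v y)) x =
      mA (nab I F.e Q.ad a u x) (v x) + mA (u x) (nab I F.e Q.ad a v x) := by
  simp only [nab, dv_bil mA hu hv, QB.ad, adc_mA, map_add, _root_.add_apply]
  abel

theorem nab_t {u : M → HS κ} {x : M} (hu : MDifferentiableAt I 𝓘(ℝ, HS κ) u x) (a : ι) :
    nab I F.e Q.ad a (fun y => tA (u y)) x = tA (nab I F.e Q.ad a u x) := by
  simp only [nab, dv_clm tA hu, QB.ad, map_add, tA_adc (H.sk a x)]

variable (Z) in
/-- **The gauge algebra.** -/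
def ga : GA (Q.R F k) (Q.Bf F k) (Q.S F k Z) (Q.C F k Z) (Q.L F k) where
  m := Q.mH F k
  st := Q.tH F k
  l := Q.lH F k mA
  r := Q.lH F k mO
  sb := Q.sbH F k
  del := Q.delH F k
  a := Q.aS F k Z
  ds := ContinuousLinearMap.inl ℝ _ _ ∘L Q.dsH F k
  pa := Q.paH F k ∘L ContinuousLinearMap.fst ℝ _ _
  ps := ContinuousLinearMap.snd ℝ _ _
  mk' := (Q.cH F k).prodMap (ContinuousLinearMap.id ℝ _)
  j := Q.jH F k
  q := Q.qH F k
  m_assoc u v w := H.ext' fun x => by simp only [H.val_m, mA_assoc]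
  st_st u := H.ext' fun x => by simp only [H.val_t, tA_tA]
  st_m u v := H.ext' fun x => by simp only [H.val_t, H.val_m, tA_mA]
  normal u := H.ext' fun x => by simp only [H.val_t, H.val_m, H.nrm x _ (H.proj' u x)]
  l_m u v b := H.ext fun x => PiLp.ext fun a => by simp only [H.val_l, H.val_m, mA_assoc]
  r_m u v b := H.ext fun x => PiLp.ext fun a => by simp only [H.val_r, H.val_m, mA_assoc]
  l_r u v b := H.ext fun x => PiLp.ext fun a => by simp only [H.val_l, H.val_r, mA_assoc]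
  del_m u v := H.ext fun x => PiLp.ext fun a => by
    rw [val_add, Pi.add_apply, PiLp.add_apply, H.val_l, H.val_r, H.val_del, H.val_del, H.val_del,
      funext (H.val_m u v), H.nab_m (H.md u x) (H.md v x)]
  sb_l u b := H.ext fun x => PiLp.ext fun a => by
    simp only [H.val_l, H.val_r, H.val_sb, H.val_t, tA_mA]
  sb_r u b := H.ext fun x => PiLp.ext fun a => by
    simp only [H.val_l, H.val_r, H.val_sb, H.val_t, tA_mA]
  sb_del u := H.ext fun x => PiLp.ext fun a => by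
    rw [H.val_sb, H.val_del, H.val_del, funext (H.val_t u), H.nab_t (H.md u x)]
  a_m u v s := Prod.ext (H.ext fun x => by
    simp only [aS_apply, H.val_a, H.val_m, opL_mA, mul_apply_eq_comp]) rfl
  ds_m u v := Prod.ext (H.ext fun x => by
    show F.val _ _ (Q.dsH F k _) x = F.val _ _ (Q.aH F k u (Q.dsH F k v)) x
    simp only [H.val_a, H.val_ds, H.val_m, opL_mA, mul_apply_eq_comp]) rfl
  sb_pa y := H.ext fun x => PiLp.ext fun a => by
    show _ = F.val _ _ (-Q.paH F k y.1) x a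
    rw [val_neg, Pi.neg_apply, PiLp.neg_apply, H.val_sb]
    show tA (F.val _ _ (Q.paH F k y.1) x a) = _
    rw [H.val_pa]
    exact ((H.g_iff x _).1 (((H.c_iff x _).1 (H.proj y.1 x)).1 a)).2
  mk_p y := Prod.ext (H.ext fun x => by
    show F.val _ _ (Q.cH F k (Q.paH F k y.1)) x = _
    rw [H.val_c, H.val_pa, H.proj]) rfl
  pa_mk b s hb := H.ext fun x => by
    show F.val _ _ (Q.paH F k (Q.cH F k b)) x = _
    have h1 := (H.b_iff x _).1 (H.proj b x)
    rw [H.val_pa, H.val_c, H.c_iff]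
    refine ⟨fun a => (H.g_iff x _).2 ⟨h1.1 a, ?_⟩, h1.2⟩
    rw [← H.val_sb, hb, val_neg]; rfl
  ps_mk _ _ := rfl
  st_j ξ := H.ext' fun x => by
    rw [H.val_t, val_neg, Pi.neg_apply, H.val_j]
    exact ((H.g_iff x _).1 (H.proj' ξ x)).2
  q_j ξ := H.ext' fun x => by rw [H.val_q, H.val_j, H.proj']
  j_q u hu := H.ext' fun x => by
    rw [H.val_j, H.val_q, H.g_iff]
    exact ⟨H.proj' u x, by rw [← H.val_t, hu, val_neg]; rfl⟩

end Hyp
end QB

end Crest.Agent.X212.Grp76
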